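import Vale.Agent.Lib.P143.Defs

namespace Vale.Agent.Lib.P143

open SimpleGraph

variable {V : Type*} {G : SimpleGraph V}

/-- `X` is an acyclic set of edges. -/
def Acyc (X : Set (Sym2 V)) : Prop := (fromEdgeSet X).IsAcyclic

theorem Acyc.mono {X Y : Set (Sym2 V)} (h : X ⊆ Y) (hY : Acyc Y) : Acyc X :=
  IsAcyclic.anti (fromEdgeSet_mono h) hY

/-- `X` is a maximal acyclic subset of `E`. -/
def IsBase (E X : Set (Sym2 V)) : Prop :=
  X ⊆ E ∧ Acyc X ∧ ∀ e ∈ E, e ∉ X → ¬ Acyc (insert e X)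

/-- `κ` is constant along every cycle of `G`. -/
def CycleConst {ι : Type*} (G : SimpleGraph V) (κ : Sym2 V → ι) : Prop :=
  ∀ (v : V) (c : G.Walk v v), c.IsCycle → ∀ e ∈ c.edges, ∀ f ∈ c.edges, κ e = κ f

theorem acyc_iff_forall_fiber {ι : Type*} {κ : Sym2 V → ι} (hκ : CycleConst G κ)
    {X : Set (Sym2 V)} (hX : X ⊆ G.edgeSet) :
    Acyc X ↔ ∀ i, Acyc (X ∩ κ ⁻¹' {i}) := by
  constructor
  · intro h i
    exact h.mono Set.inter_subset_left
  · intro h v c hc
    have hle : fromEdgeSet X ≤ G := (fromEdgeSet_le G).2 (fun e he => hX he.1)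
    have hc' : (c.mapLe hle).IsCycle := hc.mapLe hle
    have hedges : (c.mapLe hle).edges = c.edges := Walk.edges_mapLe_eq_edges _ _
    obtain ⟨e₀, he₀⟩ : ∃ e₀, e₀ ∈ c.edges := by
      have h3 := hc.three_le_length
      rw [← Walk.length_edges] at h3
      exact List.exists_mem_of_length_pos (by omega)
    have hmem : ∀ e ∈ c.edges, e ∈ (fromEdgeSet (X ∩ κ ⁻¹' {κ e₀})).edgeSet := by
      intro e he
      have h1 : e ∈ (fromEdgeSet X).edgeSet := Walk.edges_subset_edgeSet c he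
      rw [edgeSet_fromEdgeSet] at h1 ⊢
      refine ⟨⟨h1.1, ?_⟩, h1.2⟩
      exact hκ v (c.mapLe hle) hc' e (hedges ▸ he) e₀ (hedges ▸ he₀)
    exact h (κ e₀) (c.transfer _ hmem) (hc.transfer hmem)

theorem isBase_iff_forall_fiber {ι : Type*} {κ : Sym2 V → ι} (hκ : CycleConst G κ)
    {E X : Set (Sym2 V)} (hE : E ⊆ G.edgeSet) (hXE : X ⊆ E) :
    IsBase E X ↔ ∀ i, IsBase (E ∩ κ ⁻¹' {i}) (X ∩ κ ⁻¹' {i}) := by
  constructor
  · rintro ⟨-, hac, hmax⟩ i
    refine ⟨Set.inter_subset_inter_left _ hXE, hac.mono Set.inter_subset_left, ?_⟩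
    rintro e ⟨heE, hei⟩ heX hins
    have heX' : e ∉ X := fun h => heX ⟨h, hei⟩
    refine hmax e heE heX' ?_
    rw [acyc_iff_forall_fiber hκ (Set.insert_subset (hE heE) (hXE.trans hE))]
    intro j
    by_cases hj : j = i
    · subst hj
      refine hins.mono ?_
      rintro x ⟨hx, hxj⟩
      rcases hx with rfl | hx
      · exact Set.mem_insert _ _
      · exact Set.mem_insert_of_mem _ ⟨hx, hxj⟩
    · refine ((acyc_iff_forall_fiber hκ (hXE.trans hE)).1 hac j).mono ?_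
      rintro x ⟨hx, hxj⟩
      rcases hx with rfl | hx
      · exact absurd (hxj.symm.trans hei) hj
      · exact ⟨hx, hxj⟩
  · intro h
    refine ⟨hXE, ?_, ?_⟩
    · rw [acyc_iff_forall_fiber hκ (hXE.trans hE)]
      exact fun i => (h i).2.1
    · intro e heE heX hins
      refine (h (κ e)).2.2 e ⟨heE, rfl⟩ (fun hx => heX hx.1) ?_
      refine hins.mono ?_
      rintro x (rfl | hx)
      · exact Set.mem_insert _ _
      · exact Set.mem_insert_of_mem _ hx.1

end Vale.Agent.Lib.P143
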