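import Vale.Agent.Lib.P143.SpanTree

namespace Vale.Agent.Lib.P143

open SimpleGraph

variable {V : Type*} {G : SimpleGraph V}

/-- Two edges lie on a common cycle. -/
def ShareCycle (G : SimpleGraph V) (e f : Sym2 V) : Prop :=
  ∃ (v : V) (c : G.Walk v v), c.IsCycle ∧ e ∈ c.edges ∧ f ∈ c.edges

/-- The block relation: the equivalence relation generated by lying on a common cycle. -/
def Blk (G : SimpleGraph V) : Sym2 V → Sym2 V → Prop := Relation.EqvGen (ShareCycle G)

/-- The block (class) of an edge. -/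
def blockOf (G : SimpleGraph V) (e : Sym2 V) : Set (Sym2 V) := {f | Blk G e f}

theorem blk_equiv (G : SimpleGraph V) : Equivalence (Blk G) := Relation.EqvGen.is_equivalence _

theorem mem_blockOf_self (G : SimpleGraph V) (e : Sym2 V) : e ∈ blockOf G e :=
  (blk_equiv G).refl e

theorem blockOf_eq_of_blk {e f : Sym2 V} (h : Blk G e f) : blockOf G e = blockOf G f := by
  ext x
  exact ⟨fun hx => (blk_equiv G).trans ((blk_equiv G).symm h) hx,
    fun hx => (blk_equiv G).trans h hx⟩

theorem blockOf_eq_of_mem {e f : Sym2 V} (h : f ∈ blockOf G e) : blockOf G f = blockOf G e :=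
  (blockOf_eq_of_blk h).symm

theorem cycleConst_blockOf (G : SimpleGraph V) : CycleConst G (blockOf G) := by
  intro v c hc e he f hf
  exact blockOf_eq_of_blk (Relation.EqvGen.rel _ _ ⟨v, c, hc, he, hf⟩)

theorem blk_le_of_cycleConst {r : Sym2 V → Sym2 V → Prop} (hr : Equivalence r)
    (hcyc : ∀ (v : V) (c : G.Walk v v), c.IsCycle → ∀ e ∈ c.edges, ∀ f ∈ c.edges, r e f)
    {e f : Sym2 V} (h : Blk G e f) : r e f := by
  induction h with
  | rel a b h =>
    obtain ⟨v, c, hc, he, hf⟩ := h
    exact hcyc v c hc a he b hf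
  | refl a => exact hr.refl a
  | symm a b _ ih => exact hr.symm ih
  | trans a b c _ _ ih1 ih2 => exact hr.trans ih1 ih2

theorem blk_mem_edgeSet_iff {e f : Sym2 V} (h : Blk G e f) : e ∈ G.edgeSet ↔ f ∈ G.edgeSet := by
  induction h with
  | rel a b h =>
    obtain ⟨v, c, hc, he, hf⟩ := h
    exact ⟨fun _ => c.edges_subset_edgeSet hf, fun _ => c.edges_subset_edgeSet he⟩
  | refl a => exact Iff.rfl
  | symm a b _ ih => exact ih.symm
  | trans a b c _ _ ih1 ih2 => exact ih1.trans ih2

theorem blockOf_subset_edgeSet {e : Sym2 V} (he : e ∈ G.edgeSet) : blockOf G e ⊆ G.edgeSet :=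
  fun _ hf => (blk_mem_edgeSet_iff hf).1 he

theorem sym2_map_map_cancel {α : Type*} (f g : α → α) (h : ∀ x, f (g x) = x) (e : Sym2 α) :
    Sym2.map f (Sym2.map g e) = e := by
  induction e using Sym2.ind with
  | _ a b => simp [h]

theorem shareCycle_map (φ : G ≃g G) {e f : Sym2 V} (h : ShareCycle G e f) :
    ShareCycle G (Sym2.map φ e) (Sym2.map φ f) := by
  obtain ⟨v, c, hc, he, hf⟩ := h
  refine ⟨φ v, c.map φ.toHom, hc.map φ.injective, ?_, ?_⟩
  · rw [Walk.edges_map]; exact List.mem_map_of_mem he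
  · rw [Walk.edges_map]; exact List.mem_map_of_mem hf

theorem blk_map (φ : G ≃g G) {e f : Sym2 V} (h : Blk G e f) :
    Blk G (Sym2.map φ e) (Sym2.map φ f) := by
  induction h with
  | rel a b h => exact Relation.EqvGen.rel _ _ (shareCycle_map φ h)
  | refl a => exact Relation.EqvGen.refl _
  | symm a b _ ih => exact Relation.EqvGen.symm _ _ ih
  | trans a b c _ _ ih1 ih2 => exact Relation.EqvGen.trans _ _ _ ih1 ih2

theorem blockOf_map (φ : G ≃g G) (e : Sym2 V) :
    blockOf G (Sym2.map φ e) = Sym2.map φ '' blockOf G e := by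
  ext x
  constructor
  · intro hx
    refine ⟨Sym2.map φ.symm x, ?_, ?_⟩
    · have := blk_map φ.symm hx
      have h2 : Sym2.map φ.symm (Sym2.map φ e) = e :=
        sym2_map_map_cancel _ _ (fun v => φ.symm_apply_apply v) e
      rw [h2] at this
      exact this
    · exact sym2_map_map_cancel _ _ (fun v => φ.apply_symm_apply v) x
  · rintro ⟨y, hy, rfl⟩
    exact blk_map φ hy

end Vale.Agent.Lib.P143
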