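import Mathlib

namespace Vale.Agent.Lib.P143

open MeasureTheory Filter Topology

/-- The Cayley graph of the group `Γ` with respect to the set `S`: vertices are the group
elements, and `g`, `h` are adjacent iff `g ≠ h` and `g⁻¹ * h ∈ S` or `h⁻¹ * g ∈ S`.
Left multiplication by group elements acts on it by graph automorphisms. -/
def cayley {Γ : Type*} [Group Γ] (S : Set Γ) : SimpleGraph Γ :=
  SimpleGraph.fromRel (fun g h => g⁻¹ * h ∈ S)

/-- An exhaustion of the graph `G`: a nondecreasing sequence of finite connected subgraphs
whose union is `G` (every vertex and every edge of `G` lies in some member). -/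
structure IsExhaustion {V : Type*} {G : SimpleGraph V} (H : ℕ → G.Subgraph) : Prop where
  mono : Monotone H
  finite : ∀ n, (H n).verts.Finite
  connected : ∀ n, (H n).Connected
  verts : ∀ v, ∃ n, v ∈ (H n).verts
  edges : ∀ v w, G.Adj v w → ∃ n, (H n).Adj v w

/-- `T` is a spanning tree of the subgraph `H`: a subgraph of `H` with the same vertex set
that is a tree. -/
def IsSpanningTree {V : Type*} {G : SimpleGraph V} (H T : G.Subgraph) : Prop :=
  T ≤ H ∧ T.verts = H.verts ∧ T.coe.IsTree

/-- The probability that the uniform spanning tree of the finite subgraph `H`, viewed as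
an edge set, meets the finite edge set `F` exactly in `A`: the number of spanning trees `T` of
`H` with `E(T) ∩ F = A` divided by the number of all spanning trees of `H`. -/
noncomputable def ustProb {V : Type*} {G : SimpleGraph V} (H : G.Subgraph)
    (F A : Finset (Sym2 V)) : ℝ :=
  ({T : G.Subgraph | IsSpanningTree H T ∧ T.edgeSet ∩ (↑F : Set (Sym2 V)) = ↑A}.ncard : ℝ) /
    ({T : G.Subgraph | IsSpanningTree H T}.ncard : ℝ)

/-- The law of i.i.d. Uniform[0,1] labels on the vertex set `V`. -/
noncomputable def iidUniform (V : Type*) : Measure (V → unitInterval) :=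
  Measure.infinitePi (fun _ : V => (volume : Measure unitInterval))

/-- The free uniform spanning forest of the Cayley graph of `Γ` with respect to `S` is a
`Γ`-factor of IID: there is a map `Φ` from labellings `Γ → [0,1]` to edge sets of the Cayley
graph which is measurable (each event that a given edge lies in `Φ u` is measurable),
equivariant for the left multiplication action of `Γ` on labellings and on edge sets, and such
that along every exhaustion the uniform spanning tree measures converge weakly to the law of
`Φ u` under i.i.d. Uniform[0,1] labels `u` (convergence of the probabilities of all cylinder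
events: the random edge set meets a finite edge set `F` exactly in `A`). -/
def FUSFIsFactorOfIID {Γ : Type*} [Group Γ] (S : Set Γ) : Prop :=
  ∃ Φ : (Γ → unitInterval) → Set (Sym2 Γ),
    (∀ u, Φ u ⊆ (cayley S).edgeSet) ∧
    (∀ e, MeasurableSet {u | e ∈ Φ u}) ∧
    (∀ (γ : Γ) (u : Γ → unitInterval),
      Φ (fun v => u (γ⁻¹ * v)) = Sym2.map (fun v => γ * v) '' Φ u) ∧
    ∀ H : ℕ → (cayley S).Subgraph, IsExhaustion H →
      ∀ F A : Finset (Sym2 Γ), (↑F : Set (Sym2 Γ)) ⊆ (cayley S).edgeSet →
        Tendsto (fun n => ustProb (H n) F A) atTop
          (𝓝 ((iidUniform Γ {u | Φ u ∩ (↑F : Set (Sym2 Γ)) = ↑A}).toReal))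

end Vale.Agent.Lib.P143
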