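import Mathlib

namespace Vale.Agent.Lib.P143

open MeasureTheory Set
open scoped ENNReal

section digits

variable (L : ℕ) [NeZero L]

/-- first digit in base `L` of a point of the unit interval -/
noncomputable def digit (u : unitInterval) : Fin L :=
  ⟨⌊(L : ℝ) * u⌋₊ % L, Nat.mod_lt _ (NeZero.pos L)⟩

/-- remainder of the base `L` expansion -/
noncomputable def remPart (u : unitInterval) : unitInterval :=
  ⟨(L : ℝ) * u - ⌊(L : ℝ) * u⌋₊,
    ⟨sub_nonneg.2 (Nat.floor_le (mul_nonneg (Nat.cast_nonneg L) u.2.1)),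
      by linarith [Nat.lt_floor_add_one ((L : ℝ) * u)]⟩⟩

/-- digit and remainder -/
noncomputable def digRem (u : unitInterval) : Fin L × unitInterval := (digit L u, remPart L u)

theorem measurable_digit : Measurable (digit L) := by
  have h1 : Measurable (fun u : unitInterval => ⌊(L : ℝ) * u⌋₊) :=
    Nat.measurable_floor.comp (measurable_const.mul measurable_subtype_coe)
  have h2 : Measurable (fun n : ℕ => (⟨n % L, Nat.mod_lt _ (NeZero.pos L)⟩ : Fin L)) :=
    measurable_from_top
  exact h2.comp h1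

theorem measurable_remPart : Measurable (remPart L) := by
  refine Measurable.subtype_mk ?_
  have h1 : Measurable (fun u : unitInterval => ⌊(L : ℝ) * u⌋₊) :=
    Nat.measurable_floor.comp (measurable_const.mul measurable_subtype_coe)
  exact (measurable_const.mul measurable_subtype_coe).sub (measurable_from_top.comp h1)

theorem measurable_digRem : Measurable (digRem L) :=
  (measurable_digit L).prodMk (measurable_remPart L)

/-- the uniform probability measure on `Fin L` -/
noncomputable def unifFin : Measure (Fin L) := (L : ℝ≥0∞)⁻¹ • Measure.count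

instance : IsProbabilityMeasure (unifFin L) := by
  constructor
  unfold unifFin
  rw [Measure.smul_apply, Measure.count_univ]
  simp only [ENat.card_eq_coe_fintype_card, Fintype.card_fin, smul_eq_mul]
  have hL : (L : ℝ≥0∞) ≠ 0 := by exact_mod_cast (NeZero.ne L)
  exact ENNReal.inv_mul_cancel hL (by simp)

theorem unifFin_map_equiv (σ : Fin L ≃ Fin L) : (unifFin L).map σ = unifFin L := by
  ext s hs
  rw [Measure.map_apply measurable_from_top hs]
  unfold unifFin
  rw [Measure.smul_apply, Measure.smul_apply, Measure.count_apply (by trivial),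
    Measure.count_apply hs, Set.encard_preimage_of_bijective σ.bijective]

theorem preimage_core (j : Fin L) (T : Set ℝ) (x : ℝ) :
    (x ∈ Icc (0 : ℝ) 1 ∧ x ≠ 1 ∧ ⌊(L : ℝ) * x⌋₊ % L = (j : ℕ) ∧
        (L : ℝ) * x - ⌊(L : ℝ) * x⌋₊ ∈ T) ↔
      (L : ℝ) * x - (j : ℕ) ∈ T ∩ Ico (0 : ℝ) 1 := by
  have hL : (0 : ℝ) < L := by exact_mod_cast NeZero.pos L
  constructor
  · rintro ⟨⟨h0, h1⟩, hne, hd, hT⟩
    have hx1 : x < 1 := lt_of_le_of_ne h1 hne
    have hLx : (L : ℝ) * x < L := by nlinarith
    have hnn : (0 : ℝ) ≤ (L : ℝ) * x := by positivity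
    have hfl : ⌊(L : ℝ) * x⌋₊ < L := (Nat.floor_lt hnn).2 hLx
    rw [Nat.mod_eq_of_lt hfl] at hd
    rw [hd] at hT
    refine ⟨hT, ?_, ?_⟩
    · have := Nat.floor_le hnn
      rw [hd] at this; linarith
    · have := Nat.lt_floor_add_one ((L : ℝ) * x)
      rw [hd] at this; linarith
  · rintro ⟨hT, h0, h1⟩
    have hj0 : (0 : ℝ) ≤ (j : ℕ) := Nat.cast_nonneg _
    have hnn : (0 : ℝ) ≤ (L : ℝ) * x := by linarith
    have hfl : ⌊(L : ℝ) * x⌋₊ = (j : ℕ) := by
      rw [Nat.floor_eq_iff hnn]; constructor <;> linarith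
    have hjL : ((j : ℕ) : ℝ) + 1 ≤ L := by
      have : (j : ℕ) + 1 ≤ L := j.2
      exact_mod_cast this
    have hx0 : 0 ≤ x := nonneg_of_mul_nonneg_right hnn hL
    have hx1 : x < 1 := by
      by_contra hcon
      have : (L : ℝ) ≤ (L : ℝ) * x := by nlinarith [not_lt.1 hcon]
      linarith
    refine ⟨⟨hx0, hx1.le⟩, hx1.ne, ?_, ?_⟩
    · rw [hfl, Nat.mod_eq_of_lt j.2]
    · rw [hfl]; exact hT

theorem vol_digit_rem (j : Fin L) (t : Set unitInterval) :
    volume {u : unitInterval | digit L u = j ∧ remPart L u ∈ t} = (L : ℝ≥0∞)⁻¹ * volume t := by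
  have hL : (0 : ℝ) < L := by exact_mod_cast NeZero.pos L
  rw [unitInterval.volume_apply, unitInterval.volume_apply]
  set T : Set ℝ := Subtype.val '' t with hT
  have hTI : T ⊆ Icc (0 : ℝ) 1 := by
    rintro x ⟨r, -, rfl⟩; exact r.2
  have hA : Subtype.val '' {u : unitInterval | digit L u = j ∧ remPart L u ∈ t} =
      {x : ℝ | x ∈ Icc (0 : ℝ) 1 ∧ ⌊(L : ℝ) * x⌋₊ % L = (j : ℕ) ∧
        (L : ℝ) * x - ⌊(L : ℝ) * x⌋₊ ∈ T} := by
    ext x
    constructor
    · rintro ⟨u, ⟨hd, hr⟩, rfl⟩
      refine ⟨u.2, ?_, ?_⟩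
      · have := congrArg Fin.val hd
        exact this
      · exact ⟨remPart L u, hr, rfl⟩
    · rintro ⟨hx, hd, r, hr, hrx⟩
      refine ⟨⟨x, hx⟩, ⟨?_, ?_⟩, rfl⟩
      · exact Fin.ext hd
      · have : remPart L ⟨x, hx⟩ = r := Subtype.ext hrx.symm
        rw [this]; exact hr
  rw [hA]
  have h1 : {x : ℝ | x ∈ Icc (0 : ℝ) 1 ∧ ⌊(L : ℝ) * x⌋₊ % L = (j : ℕ) ∧
        (L : ℝ) * x - ⌊(L : ℝ) * x⌋₊ ∈ T} \ {1} =
      (fun x : ℝ => (L : ℝ) * x) ⁻¹' ((fun y : ℝ => y + (-((j : ℕ) : ℝ))) ⁻¹' (T \ {1})) := by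
    ext x
    have hcore := preimage_core L j T x
    have hT1 : T ∩ Ico (0 : ℝ) 1 = T \ {1} := by
      ext y
      constructor
      · rintro ⟨hy, -, hy1⟩; exact ⟨hy, by simp; exact hy1.ne⟩
      · rintro ⟨hy, hy1⟩
        exact ⟨hy, (hTI hy).1, lt_of_le_of_ne (hTI hy).2 (by simpa using hy1)⟩
    rw [hT1] at hcore
    simp only [mem_diff, mem_ofPred_eq, mem_singleton_iff, mem_preimage]
    rw [← sub_eq_add_neg]
    constructor
    · rintro ⟨⟨hx, hd, hr⟩, hne⟩
      exact hcore.1 ⟨hx, hne, hd, hr⟩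
    · intro h
      obtain ⟨hx, hne, hd, hr⟩ := hcore.2 h
      exact ⟨⟨hx, hd, hr⟩, hne⟩
  have hnull : volume ({1} : Set ℝ) = 0 := Real.volume_singleton
  rw [← measure_diff_null hnull, h1, Real.volume_preimage_mul_left hL.ne',
    measure_preimage_add_right, measure_diff_null hnull]
  congr 1
  rw [abs_of_pos (inv_pos.2 hL), ENNReal.ofReal_inv_of_pos hL]
  simp

/-- The digit and the remainder of a uniform point are independent, the digit being uniform
on `Fin L` and the remainder uniform on the unit interval. -/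
theorem map_digRem : (volume : Measure unitInterval).map (digRem L) =
    (unifFin L).prod (volume : Measure unitInterval) := by
  symm
  refine Measure.prod_eq (fun s t _ ht => ?_)
  rw [Measure.map_apply (measurable_digRem L) (MeasurableSet.prod (by trivial) ht)]
  have hpre : digRem L ⁻¹' (s ×ˢ t) =
      ⋃ j ∈ (Set.toFinite s).toFinset,
        {u : unitInterval | digit L u = j ∧ remPart L u ∈ t} := by
    ext u
    simp [digRem]
  rw [hpre, measure_biUnion_finset]
  · simp_rw [vol_digit_rem]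
    rw [Finset.sum_const, nsmul_eq_mul]
    unfold unifFin
    rw [Measure.smul_apply, Measure.count_apply (by trivial), smul_eq_mul,
      (Set.toFinite s).encard_eq_coe_toFinset_card]
    simp only [ENat.toENNReal_coe]
    ring
  · intro i _ j _ hij
    rw [Function.onFun, Set.disjoint_left]
    rintro u ⟨h1, -⟩ ⟨h2, -⟩
    exact hij (h1.symm.trans h2)
  · intro j _
    have h1 : MeasurableSet {u : unitInterval | digit L u = j} :=
      measurableSet_eq_fun (measurable_digit L) measurable_const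
    have h2 : MeasurableSet {u : unitInterval | remPart L u ∈ t} := measurable_remPart L ht
    exact h1.inter h2

end digits

end Vale.Agent.Lib.P143
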