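import Vale.Agent.Lib.P143.Blocks

namespace Vale.Agent.Lib.P143

open SimpleGraph

variable {V : Type*}

/-- image of an edge set under a permutation of the vertices -/
def mapS (φ : Equiv.Perm V) (X : Set (Sym2 V)) : Set (Sym2 V) := Sym2.map φ '' X

theorem mapS_symm_mapS (φ : Equiv.Perm V) (X : Set (Sym2 V)) : mapS φ.symm (mapS φ X) = X := by
  unfold mapS
  rw [Set.image_image]
  have : (fun x => Sym2.map φ.symm (Sym2.map φ x)) = id := by
    funext e
    exact sym2_map_map_cancel _ _ (fun v => φ.symm_apply_apply v) e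
  rw [this, Set.image_id]

theorem mapS_mapS_symm (φ : Equiv.Perm V) (X : Set (Sym2 V)) : mapS φ (mapS φ.symm X) = X := by
  have := mapS_symm_mapS φ.symm X
  simpa using this

theorem mapS_injective (φ : Equiv.Perm V) : Function.Injective (mapS φ) := by
  intro X Y h
  have := congrArg (mapS φ.symm) h
  rwa [mapS_symm_mapS, mapS_symm_mapS] at this

theorem mem_mapS_map (φ : Equiv.Perm V) (X : Set (Sym2 V)) (e : Sym2 V) :
    Sym2.map φ e ∈ mapS φ X ↔ e ∈ X := by
  constructor
  · rintro ⟨e', he', h⟩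
    have : e' = e := Sym2.map.injective φ.injective h
    exact this ▸ he'
  · intro h; exact ⟨e, h, rfl⟩

theorem mapS_mono (φ : Equiv.Perm V) {X Y : Set (Sym2 V)} (h : X ⊆ Y) : mapS φ X ⊆ mapS φ Y :=
  Set.image_mono h

theorem mapS_subset_iff (φ : Equiv.Perm V) {X Y : Set (Sym2 V)} : mapS φ X ⊆ mapS φ Y ↔ X ⊆ Y := by
  constructor
  · intro h
    have := mapS_mono φ.symm h
    rwa [mapS_symm_mapS, mapS_symm_mapS] at this
  · exact mapS_mono φ

theorem mapS_insert (φ : Equiv.Perm V) (e : Sym2 V) (X : Set (Sym2 V)) :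
    mapS φ (insert e X) = insert (Sym2.map φ e) (mapS φ X) := by
  unfold mapS; rw [Set.image_insert_eq]

theorem acyc_of_acyc_mapS (φ : Equiv.Perm V) {X : Set (Sym2 V)} (h : Acyc (mapS φ X)) : Acyc X := by
  unfold Acyc at h ⊢
  let f : fromEdgeSet X →g fromEdgeSet (mapS φ X) :=
    { toFun := φ
      map_rel' := by
        intro a b hab
        rw [fromEdgeSet_adj] at hab ⊢
        exact ⟨⟨s(a, b), hab.1, rfl⟩, fun h' => hab.2 (φ.injective h')⟩ }
  exact h.comap f φ.injective

theorem acyc_mapS_iff (φ : Equiv.Perm V) {X : Set (Sym2 V)} : Acyc (mapS φ X) ↔ Acyc X := by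
  refine ⟨acyc_of_acyc_mapS φ, fun h => ?_⟩
  apply acyc_of_acyc_mapS φ.symm
  rwa [mapS_symm_mapS]

theorem isBase_mapS_iff (φ : Equiv.Perm V) {E X : Set (Sym2 V)} :
    IsBase (mapS φ E) (mapS φ X) ↔ IsBase E X := by
  unfold IsBase
  rw [mapS_subset_iff, acyc_mapS_iff]
  refine and_congr Iff.rfl (and_congr Iff.rfl ?_)
  constructor
  · intro h e heE heX hins
    refine h (Sym2.map φ e) ((mem_mapS_map φ E e).2 heE) (fun h' => heX ((mem_mapS_map φ X e).1 h')) ?_
    rw [← mapS_insert, acyc_mapS_iff]; exact hins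
  · rintro h e' ⟨e, heE, rfl⟩ heX hins
    refine h e heE (fun h' => heX ((mem_mapS_map φ X e).2 h')) ?_
    rw [← mapS_insert, acyc_mapS_iff] at hins; exact hins

theorem isBase_mapS_iff' (φ : Equiv.Perm V) {E Y : Set (Sym2 V)} :
    IsBase (mapS φ E) Y ↔ IsBase E (mapS φ.symm Y) := by
  rw [← isBase_mapS_iff φ (X := mapS φ.symm Y), mapS_mapS_symm]

/-- number of bases of an edge set -/
noncomputable def nb (E : Set (Sym2 V)) : ℕ := {X | IsBase E X}.ncard

theorem nb_mapS (φ : Equiv.Perm V) (E : Set (Sym2 V)) : nb (mapS φ E) = nb E := by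
  unfold nb
  have : {Y | IsBase (mapS φ E) Y} = mapS φ '' {X | IsBase E X} := by
    ext Y
    constructor
    · intro hY
      exact ⟨mapS φ.symm Y, (isBase_mapS_iff' φ).1 hY, mapS_mapS_symm φ Y⟩
    · rintro ⟨X, hX, rfl⟩
      exact (isBase_mapS_iff φ).2 hX
  rw [this, Set.ncard_image_of_injective _ (mapS_injective φ)]

theorem nb_pos {E : Set (Sym2 V)} (hE : E.Finite) : 0 < nb E := by
  unfold nb
  rw [Set.ncard_pos (finite_setOf_isBase hE)]
  exact exists_isBase hE

end Vale.Agent.Lib.P143
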