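import Vale.Agent.Lib.P143.Defs

namespace Vale.Agent.Lib.P143

open MeasureTheory Filter Topology

/-- the event that a random edge set meets `F` exactly in `A` is measurable -/
theorem measurableSet_inter_eq {Ω V : Type*} [MeasurableSpace Ω] (Ψ : Ω → Set (Sym2 V))
    (h2 : ∀ e, MeasurableSet {ℓ | e ∈ Ψ ℓ}) (F A : Finset (Sym2 V)) :
    MeasurableSet {ℓ | Ψ ℓ ∩ (↑F : Set (Sym2 V)) = ↑A} := by
  classical
  have : {ℓ | Ψ ℓ ∩ (↑F : Set (Sym2 V)) = ↑A} =
      {ℓ | A ⊆ F} ∩ ⋂ e ∈ F, {ℓ | e ∈ Ψ ℓ ↔ e ∈ A} := by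
    ext ℓ
    simp only [Set.mem_ofPred_eq, Set.mem_inter_iff, Set.mem_iInter]
    constructor
    · intro h
      refine ⟨?_, fun e he => ?_⟩
      · intro e he
        have : e ∈ (↑A : Set (Sym2 V)) := he
        rw [← h] at this
        exact this.2
      · constructor
        · intro h'
          have : e ∈ Ψ ℓ ∩ (↑F : Set (Sym2 V)) := ⟨h', he⟩
          rw [h] at this; exact this
        · intro h'
          have : e ∈ (↑A : Set (Sym2 V)) := h'
          rw [← h] at this; exact this.1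
    · rintro ⟨hAF, h⟩
      ext e
      constructor
      · rintro ⟨h1, h2⟩
        exact (h e h2).1 h1
      · intro h1
        have h1' : e ∈ A := h1
        exact ⟨(h e (hAF h1')).2 h1', hAF h1'⟩
  rw [this]
  refine MeasurableSet.inter (MeasurableSet.const _) ?_
  refine Finset.measurableSet_biInter F (fun e _ => ?_)
  by_cases he : e ∈ A
  · have : {ℓ | e ∈ Ψ ℓ ↔ e ∈ A} = {ℓ | e ∈ Ψ ℓ} := by
      ext ℓ; simp [he]
    rw [this]; exact h2 e
  · have : {ℓ | e ∈ Ψ ℓ ↔ e ∈ A} = {ℓ | e ∈ Ψ ℓ}ᶜ := by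
      ext ℓ; simp [he]
    rw [this]; exact (h2 e).compl

/-- Transfer of a factor along a measure preserving relabelling of the labels. -/
theorem factor_transfer {Γ : Type*} [Group Γ] (S : Set Γ) {𝓛 : Type*} [MeasurableSpace 𝓛]
    (lam : Measure 𝓛) [IsProbabilityMeasure lam] (ψ : unitInterval → 𝓛) (hψ : Measurable ψ)
    (hmap : (volume : Measure unitInterval).map ψ = lam)
    (Ψ : (Γ → 𝓛) → Set (Sym2 Γ))
    (h1 : ∀ ℓ, Ψ ℓ ⊆ (cayley S).edgeSet)
    (h2 : ∀ e, MeasurableSet {ℓ | e ∈ Ψ ℓ})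
    (h3 : ∀ (γ : Γ) (ℓ : Γ → 𝓛),
      Ψ (fun v => ℓ (γ⁻¹ * v)) = Sym2.map (fun v => γ * v) '' Ψ ℓ)
    (h4 : ∀ H : ℕ → (cayley S).Subgraph, IsExhaustion H →
      ∀ F A : Finset (Sym2 Γ), (↑F : Set (Sym2 Γ)) ⊆ (cayley S).edgeSet →
        Tendsto (fun n => ustProb (H n) F A) atTop
          (𝓝 ((Measure.infinitePi (fun _ : Γ => lam)
            {ℓ | Ψ ℓ ∩ (↑F : Set (Sym2 Γ)) = ↑A}).toReal))) :
    FUSFIsFactorOfIID S := by
  have hg : Measurable (fun (u : Γ → unitInterval) (v : Γ) => ψ (u v)) :=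
    measurable_pi_lambda _ (fun v => hψ.comp (measurable_pi_apply v))
  refine ⟨fun u => Ψ (fun v => ψ (u v)), fun u => h1 _, fun e => hg (h2 e),
    fun γ u => h3 γ (fun v => ψ (u v)), ?_⟩
  intro H hH F A hF
  have key : iidUniform Γ {u | Ψ (fun v => ψ (u v)) ∩ (↑F : Set (Sym2 Γ)) = ↑A} =
      Measure.infinitePi (fun _ : Γ => lam) {ℓ | Ψ ℓ ∩ (↑F : Set (Sym2 Γ)) = ↑A} := by
    have hm := Measure.infinitePi_map_pi (μ := fun _ : Γ => (volume : Measure unitInterval))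
      (f := fun _ : Γ => ψ) (fun _ => hψ)
    simp only [hmap] at hm
    rw [← hm, Measure.map_apply hg (measurableSet_inter_eq Ψ h2 F A)]
    rfl
  rw [key]
  exact h4 H hH F A hF

end Vale.Agent.Lib.P143
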