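import Vale.Agent.Lib.P143.Equivar
import Vale.Agent.Lib.P143.Digits
import Vale.Agent.Lib.P143.Transfer

namespace Vale.Agent.Lib.P143

open SimpleGraph MeasureTheory

/-- An enumeration of a finite set by an initial segment of the natural numbers. -/
theorem exists_enum {α : Type*} [Inhabited α] (s : Set α) (hs : s.Finite) :
    ∃ f : ℕ → α, Set.BijOn f (Set.Iio s.ncard) s := by
  classical
  set l := hs.toFinset.toList with hl
  have hlen : l.length = s.ncard := by
    rw [hl, Finset.length_toList, Set.ncard_eq_toFinset_card s hs]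
  have hnd : l.Nodup := Finset.nodup_toList _
  have hmem : ∀ x, x ∈ l ↔ x ∈ s := fun x => by rw [hl, Finset.mem_toList, Set.Finite.mem_toFinset]
  refine ⟨fun j => l.getD j default, ?_, ?_, ?_⟩
  · intro j hj
    have hj' : j < l.length := by rw [hlen]; exact hj
    simp only [List.getD_eq_getElem _ _ hj']
    exact (hmem _).1 (List.getElem_mem hj')
  · intro i hi j hj hij
    have hi' : i < l.length := by rw [hlen]; exact hi
    have hj' : j < l.length := by rw [hlen]; exact hj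
    simp only [List.getD_eq_getElem _ _ hi', List.getD_eq_getElem _ _ hj'] at hij
    exact (List.Nodup.getElem_inj_iff hnd).1 hij
  · intro x hx
    obtain ⟨j, hj, rfl⟩ := List.mem_iff_getElem.1 ((hmem x).2 hx)
    refine ⟨j, ?_, ?_⟩
    · show j < s.ncard
      rw [← hlen]; exact hj
    · simp only [List.getD_eq_getElem _ _ hj]

section defs

variable {Γ : Type*} [Group Γ]

/-- left multiplication as a permutation -/
def lmul (γ : Γ) : Equiv.Perm Γ := Equiv.mulLeft γ

/-- the vertices of an edge set -/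
def vertsOf (c : Set (Sym2 Γ)) : Set Γ := {v | ∃ e ∈ c, v ∈ e}

/-- directions of the edges of `c` at `v` -/
def gen (v : Γ) (c : Set (Sym2 Γ)) : Set Γ := {t | s(v, v * t) ∈ c}

open Classical in
/-- a chosen element of a set of group elements -/
noncomputable def pick (A : Set Γ) : Γ :=
  if h : A.Nonempty then h.some else 1

theorem pick_mem {A : Set Γ} (h : A.Nonempty) : pick A ∈ A := by
  unfold pick; rw [dif_pos h]; exact h.some_mem

/-- a chosen direction of `c` at `v` -/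
noncomputable def slot (v : Γ) (c : Set (Sym2 Γ)) : Γ := pick (gen v c)

open Classical in
/-- the vertices of an edge set, as a finset (empty if infinite) -/
noncomputable def vertsF (c : Set (Sym2 Γ)) : Finset Γ :=
  if h : (vertsOf c).Finite then h.toFinset else ∅

open Classical in
/-- an enumeration of the bases of an edge set -/
noncomputable def enum (c : Set (Sym2 Γ)) : ℕ → Set (Sym2 Γ) :=
  if h : {X | IsBase c X}.Finite then Classical.choose (exists_enum _ h) else fun _ => ∅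

theorem enum_bijOn {c : Set (Sym2 Γ)} (hc : c.Finite) :
    Set.BijOn (enum c) (Set.Iio (nb c)) {X | IsBase c X} := by
  unfold enum
  rw [dif_pos (finite_setOf_isBase hc)]
  exact Classical.choose_spec (exists_enum _ (finite_setOf_isBase hc))

/-- the chart of the bases of `c` seen from the vertex `v` -/
noncomputable def chart (v : Γ) (c : Set (Sym2 Γ)) (j : ℕ) : Set (Sym2 Γ) :=
  mapS (lmul v) (enum (mapS (lmul v⁻¹) c) (j % nb c))

theorem lmul_apply (γ v : Γ) : lmul γ v = γ * v := rfl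

theorem lmul_symm (γ : Γ) : (lmul γ).symm = lmul γ⁻¹ := by
  ext v; simp [lmul]

theorem mapS_lmul_mul (a b : Γ) (X : Set (Sym2 Γ)) :
    mapS (lmul (a * b)) X = mapS (lmul a) (mapS (lmul b) X) := by
  unfold mapS
  rw [Set.image_image]
  congr 1
  funext e
  induction e using Sym2.ind with
  | _ x y => simp [lmul, mul_assoc]

theorem mapS_lmul_one (X : Set (Sym2 Γ)) : mapS (lmul (1 : Γ)) X = X := by
  unfold mapS
  have : (Sym2.map (lmul (1 : Γ))) = id := by
    funext e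
    induction e using Sym2.ind with
    | _ x y => simp [lmul]
  rw [this, Set.image_id]

theorem mapS_lmul_inv_cancel (a : Γ) (X : Set (Sym2 Γ)) :
    mapS (lmul a) (mapS (lmul a⁻¹) X) = X := by
  rw [← mapS_lmul_mul, mul_inv_cancel, mapS_lmul_one]

theorem mapS_lmul_inv_cancel' (a : Γ) (X : Set (Sym2 Γ)) :
    mapS (lmul a⁻¹) (mapS (lmul a) X) = X := by
  rw [← mapS_lmul_mul, inv_mul_cancel, mapS_lmul_one]

theorem mapS_finite (φ : Equiv.Perm Γ) {X : Set (Sym2 Γ)} (h : X.Finite) : (mapS φ X).Finite :=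
  h.image _

theorem mem_mapS_lmul (γ : Γ) (X : Set (Sym2 Γ)) (a b : Γ) :
    s(γ * a, γ * b) ∈ mapS (lmul γ) X ↔ s(a, b) ∈ X := by
  have := mem_mapS_map (lmul γ) X s(a, b)
  simpa [lmul] using this

theorem chart_bijOn (v : Γ) {c : Set (Sym2 Γ)} (hc : c.Finite) :
    Set.BijOn (chart v c) (Set.Iio (nb c)) {X | IsBase c X} := by
  have hc' : (mapS (lmul v⁻¹) c).Finite := mapS_finite _ hc
  have hnb : nb (mapS (lmul v⁻¹) c) = nb c := nb_mapS _ _
  have hen := enum_bijOn hc'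
  rw [hnb] at hen
  refine ⟨?_, ?_, ?_⟩
  · intro j hj
    have hj' : j % nb c = j := Nat.mod_eq_of_lt hj
    show IsBase c (chart v c j)
    unfold chart
    rw [hj']
    have h1 : IsBase (mapS (lmul v⁻¹) c) (enum (mapS (lmul v⁻¹) c) j) := hen.1 hj
    have h2 := (isBase_mapS_iff (lmul v)).2 h1
    rwa [mapS_lmul_inv_cancel] at h2
  · intro i hi j hj hij
    unfold chart at hij
    rw [Nat.mod_eq_of_lt hi, Nat.mod_eq_of_lt hj] at hij
    exact hen.2.1 hi hj (mapS_injective _ hij)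
  · intro B hB
    have h1 : IsBase (mapS (lmul v⁻¹) c) (mapS (lmul v⁻¹) B) :=
      (isBase_mapS_iff (lmul v⁻¹)).2 hB
    obtain ⟨j, hj, hjB⟩ := hen.2.2 h1
    refine ⟨j, hj, ?_⟩
    unfold chart
    rw [Nat.mod_eq_of_lt hj, hjB, mapS_lmul_inv_cancel]

theorem chart_isBase (v : Γ) {c : Set (Sym2 Γ)} (hc : c.Finite) (j : ℕ) :
    IsBase c (chart v c j) := by
  have hpos := nb_pos hc
  have h := (chart_bijOn v hc).1 (show j % nb c ∈ Set.Iio (nb c) from Nat.mod_lt _ hpos)
  have : chart v c (j % nb c) = chart v c j := by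
    unfold chart; rw [Nat.mod_mod]
  rw [this] at h
  exact h

theorem chart_eq_iff (v : Γ) {c : Set (Sym2 Γ)} (hc : c.Finite) (i j : ℕ) :
    chart v c i = chart v c j ↔ i % nb c = j % nb c := by
  have hpos := nb_pos hc
  constructor
  · intro h
    have hi : chart v c (i % nb c) = chart v c i := by unfold chart; rw [Nat.mod_mod]
    have hj : chart v c (j % nb c) = chart v c j := by unfold chart; rw [Nat.mod_mod]
    exact (chart_bijOn v hc).2.1 (Nat.mod_lt _ hpos) (Nat.mod_lt _ hpos) (by rw [hi, hj, h])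
  · intro h
    unfold chart; rw [h]

theorem chart_equivariant (γ w : Γ) (c : Set (Sym2 Γ)) (j : ℕ) :
    chart (γ * w) (mapS (lmul γ) c) j = mapS (lmul γ) (chart w c j) := by
  unfold chart
  rw [nb_mapS, mapS_lmul_mul γ w, mul_inv_rev, mapS_lmul_mul w⁻¹ γ⁻¹, mapS_lmul_inv_cancel']

theorem vertsOf_mapS (γ : Γ) (c : Set (Sym2 Γ)) :
    vertsOf (mapS (lmul γ) c) = (fun v => γ * v) '' vertsOf c := by
  ext v
  constructor
  · rintro ⟨e', ⟨e, he, rfl⟩, hv⟩
    rw [Sym2.mem_map] at hv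
    obtain ⟨a, ha, rfl⟩ := hv
    exact ⟨a, ⟨e, he, ha⟩, rfl⟩
  · rintro ⟨a, ⟨e, he, ha⟩, rfl⟩
    exact ⟨Sym2.map (lmul γ) e, ⟨e, he, rfl⟩, Sym2.mem_map.2 ⟨a, ha, rfl⟩⟩

theorem mem_vertsOf_mapS (γ v : Γ) (c : Set (Sym2 Γ)) :
    γ * v ∈ vertsOf (mapS (lmul γ) c) ↔ v ∈ vertsOf c := by
  rw [vertsOf_mapS]
  constructor
  · rintro ⟨a, ha, h⟩
    have : a = v := mul_left_cancel h
    exact this ▸ ha
  · intro h; exact ⟨v, h, rfl⟩

theorem gen_mapS (γ v : Γ) (c : Set (Sym2 Γ)) : gen (γ * v) (mapS (lmul γ) c) = gen v c := by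
  ext t
  unfold gen
  simp only [Set.mem_ofPred_eq]
  rw [mul_assoc, mem_mapS_lmul]

theorem slot_mapS (γ v : Γ) (c : Set (Sym2 Γ)) : slot (γ * v) (mapS (lmul γ) c) = slot v c := by
  unfold slot
  rw [gen_mapS]

theorem vertsF_mapS (γ : Γ) (c : Set (Sym2 Γ)) :
    vertsF (mapS (lmul γ) c) = (vertsF c).map (mulLeftEmbedding γ) := by
  classical
  unfold vertsF
  by_cases h : (vertsOf c).Finite
  · have h' : (vertsOf (mapS (lmul γ) c)).Finite := by
      rw [vertsOf_mapS]; exact h.image _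
    rw [dif_pos h, dif_pos h']
    ext v
    simp only [Set.Finite.mem_toFinset, Finset.mem_map, mulLeftEmbedding_apply]
    rw [vertsOf_mapS]
    rfl
  · have h' : ¬ (vertsOf (mapS (lmul γ) c)).Finite := by
      rw [vertsOf_mapS]
      intro hfin
      exact h (hfin.of_finite_image (mul_right_injective γ).injOn)
    rw [dif_neg h, dif_neg h']
    rfl

theorem mem_vertsF {c : Set (Sym2 Γ)} (hc : c.Finite) (v : Γ) : v ∈ vertsF c ↔ v ∈ vertsOf c := by
  have hfin : (vertsOf c).Finite := by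
    have : vertsOf c ⊆ ⋃ e ∈ c, {v | v ∈ e} := by
      rintro v ⟨e, he, hv⟩
      exact Set.mem_biUnion he hv
    refine (Set.Finite.biUnion hc (fun e _ => ?_)).subset this
    induction e using Sym2.ind with
    | _ a b =>
      refine (Set.toFinite {a, b}).subset ?_
      intro v hv
      simpa using hv
  unfold vertsF
  rw [dif_pos hfin, Set.Finite.mem_toFinset]

end defs

section factor

variable {Γ : Type*} [Group Γ] {𝓛 : Type*} (dig : 𝓛 → Γ → ℕ) (rem : 𝓛 → unitInterval)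

/-- the offset of the class `c`: the sum of the digits of its vertices at their slots -/
noncomputable def offset (c : Set (Sym2 Γ)) (ℓ : Γ → 𝓛) : ℕ :=
  ∑ v ∈ vertsF c, dig (ℓ v) (slot v c)

/-- `w` is a vertex of `c` with the largest remainder -/
def IsWinner (c : Set (Sym2 Γ)) (ℓ : Γ → 𝓛) (w : Γ) : Prop :=
  w ∈ vertsOf c ∧ ∀ v ∈ vertsOf c, rem (ℓ v) ≤ rem (ℓ w)

/-- the base of `c` selected by the labels -/
noncomputable def sel (c : Set (Sym2 Γ)) (ℓ : Γ → 𝓛) : Set (Sym2 Γ) :=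
  {e | ∃ w, IsWinner rem c ℓ w ∧ e ∈ chart w c (offset dig c ℓ)}

/-- the factor map: an edge is kept iff it belongs to the selected base of its block -/
noncomputable def factorMap (G : SimpleGraph Γ) (ℓ : Γ → 𝓛) : Set (Sym2 Γ) :=
  {e | e ∈ G.edgeSet ∧ e ∈ sel dig rem (blockOf G e) ℓ}

theorem offset_equivariant (γ : Γ) (c : Set (Sym2 Γ)) (ℓ : Γ → 𝓛) :
    offset dig (mapS (lmul γ) c) (fun v => ℓ (γ⁻¹ * v)) = offset dig c ℓ := by
  unfold offset
  rw [vertsF_mapS, Finset.sum_map]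
  refine Finset.sum_congr rfl (fun v _ => ?_)
  simp only [mulLeftEmbedding_apply]
  rw [slot_mapS, inv_mul_cancel_left]

theorem isWinner_equivariant (γ : Γ) (c : Set (Sym2 Γ)) (ℓ : Γ → 𝓛) (w : Γ) :
    IsWinner rem (mapS (lmul γ) c) (fun v => ℓ (γ⁻¹ * v)) (γ * w) ↔ IsWinner rem c ℓ w := by
  unfold IsWinner
  rw [mem_vertsOf_mapS]
  beta_reduce
  rw [inv_mul_cancel_left]
  refine and_congr Iff.rfl ?_
  constructor
  · intro h v hv
    have := h (γ * v) ((mem_vertsOf_mapS γ v c).2 hv)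
    rwa [inv_mul_cancel_left] at this
  · intro h v hv
    rw [vertsOf_mapS] at hv
    obtain ⟨a, ha, rfl⟩ := hv
    rw [inv_mul_cancel_left]
    exact h a ha

theorem sel_equivariant (γ : Γ) (c : Set (Sym2 Γ)) (ℓ : Γ → 𝓛) :
    sel dig rem (mapS (lmul γ) c) (fun v => ℓ (γ⁻¹ * v)) = mapS (lmul γ) (sel dig rem c ℓ) := by
  ext e
  unfold sel
  simp only [Set.mem_ofPred_eq, offset_equivariant]
  constructor
  · rintro ⟨w, hw, he⟩
    have hw' : IsWinner rem (mapS (lmul γ) c) (fun v => ℓ (γ⁻¹ * v)) (γ * (γ⁻¹ * w)) := by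
      rwa [mul_inv_cancel_left]
    rw [isWinner_equivariant] at hw'
    have he' : e ∈ chart (γ * (γ⁻¹ * w)) (mapS (lmul γ) c) (offset dig c ℓ) := by
      rwa [mul_inv_cancel_left]
    rw [chart_equivariant] at he'
    obtain ⟨e0, he0, rfl⟩ := he'
    exact ⟨e0, ⟨γ⁻¹ * w, hw', he0⟩, rfl⟩
  · rintro ⟨e0, ⟨w, hw, he0⟩, rfl⟩
    refine ⟨γ * w, (isWinner_equivariant rem γ c ℓ w).2 hw, ?_⟩
    rw [chart_equivariant]
    exact ⟨e0, he0, rfl⟩

/-- left multiplication as an automorphism of a left-invariant graph -/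
def lmulIso (G : SimpleGraph Γ) (hG : ∀ γ a b : Γ, G.Adj (γ * a) (γ * b) ↔ G.Adj a b) (γ : Γ) :
    G ≃g G where
  toEquiv := lmul γ
  map_rel_iff' := hG γ _ _

theorem blockOf_lmul (G : SimpleGraph Γ) (hG : ∀ γ a b : Γ, G.Adj (γ * a) (γ * b) ↔ G.Adj a b)
    (γ : Γ) (e : Sym2 Γ) :
    blockOf G (Sym2.map (lmul γ) e) = mapS (lmul γ) (blockOf G e) :=
  blockOf_map (lmulIso G hG γ) e

theorem mem_edgeSet_lmul (G : SimpleGraph Γ)
    (hG : ∀ γ a b : Γ, G.Adj (γ * a) (γ * b) ↔ G.Adj a b) (γ : Γ) (e : Sym2 Γ) :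
    Sym2.map (lmul γ) e ∈ G.edgeSet ↔ e ∈ G.edgeSet := by
  induction e using Sym2.ind with
  | _ a b => exact hG γ a b

theorem factorMap_equivariant (G : SimpleGraph Γ)
    (hG : ∀ γ a b : Γ, G.Adj (γ * a) (γ * b) ↔ G.Adj a b) (γ : Γ) (ℓ : Γ → 𝓛) :
    factorMap dig rem G (fun v => ℓ (γ⁻¹ * v)) = mapS (lmul γ) (factorMap dig rem G ℓ) := by
  ext e
  constructor
  · rintro ⟨he, hsel⟩
    obtain ⟨e0, rfl⟩ : ∃ e0, Sym2.map (lmul γ) e0 = e :=
      ⟨Sym2.map (lmul γ⁻¹) e, sym2_map_map_cancel _ _ (fun v => mul_inv_cancel_left γ v) e⟩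
    rw [blockOf_lmul G hG, sel_equivariant] at hsel
    rw [mem_edgeSet_lmul G hG] at he
    exact ⟨e0, ⟨he, (mem_mapS_map _ _ _).1 hsel⟩, rfl⟩
  · rintro ⟨e0, ⟨he, hsel⟩, rfl⟩
    refine ⟨(mem_edgeSet_lmul G hG γ e0).2 he, ?_⟩
    rw [blockOf_lmul G hG, sel_equivariant]
    exact (mem_mapS_map _ _ _).2 hsel

theorem factorMap_subset (G : SimpleGraph Γ) (ℓ : Γ → 𝓛) : factorMap dig rem G ℓ ⊆ G.edgeSet :=
  fun _ he => he.1

theorem vertsOf_finite {c : Set (Sym2 Γ)} (hc : c.Finite) : (vertsOf c).Finite := by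
  have : vertsOf c ⊆ ⋃ e ∈ c, {v | v ∈ e} := by
    rintro v ⟨e, he, hv⟩
    exact Set.mem_biUnion he hv
  refine (Set.Finite.biUnion hc (fun e _ => ?_)).subset this
  induction e using Sym2.ind with
  | _ a b =>
    refine (Set.toFinite {a, b}).subset ?_
    intro v hv
    simpa using hv

variable [MeasurableSpace 𝓛]

theorem measurable_offset (hdig : ∀ t, Measurable (fun x => dig x t)) (c : Set (Sym2 Γ)) :
    Measurable (offset dig c) := by
  unfold offset
  refine Finset.measurable_sum _ (fun v _ => ?_)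
  exact (hdig (slot v c)).comp (measurable_pi_apply v)

theorem measurableSet_isWinner (hrem : Measurable rem) {c : Set (Sym2 Γ)} (hc : c.Finite)
    (w : Γ) : MeasurableSet {ℓ : Γ → 𝓛 | IsWinner rem c ℓ w} := by
  by_cases hw : w ∈ vertsOf c
  · have : {ℓ : Γ → 𝓛 | IsWinner rem c ℓ w} =
        ⋂ v ∈ vertsOf c, {ℓ : Γ → 𝓛 | rem (ℓ v) ≤ rem (ℓ w)} := by
      ext ℓ
      simp [IsWinner, hw]
    rw [this]
    refine MeasurableSet.biInter (vertsOf_finite hc).countable (fun v _ => ?_)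
    exact measurableSet_le (hrem.comp (measurable_pi_apply v)) (hrem.comp (measurable_pi_apply w))
  · have : {ℓ : Γ → 𝓛 | IsWinner rem c ℓ w} = ∅ := by
      ext ℓ
      simp [IsWinner, hw]
    rw [this]; exact MeasurableSet.empty

theorem measurableSet_mem_sel (hdig : ∀ t, Measurable (fun x => dig x t)) (hrem : Measurable rem)
    {c : Set (Sym2 Γ)} (hc : c.Finite) (e : Sym2 Γ) :
    MeasurableSet {ℓ : Γ → 𝓛 | e ∈ sel dig rem c ℓ} := by
  have : {ℓ : Γ → 𝓛 | e ∈ sel dig rem c ℓ} =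
      ⋃ w ∈ vertsOf c, ({ℓ : Γ → 𝓛 | IsWinner rem c ℓ w} ∩
        (offset dig c) ⁻¹' {j | e ∈ chart w c j}) := by
    ext ℓ
    simp only [sel, Set.mem_ofPred_eq, Set.mem_iUnion, Set.mem_inter_iff, Set.mem_preimage,
      exists_prop]
    constructor
    · rintro ⟨w, hw, he⟩; exact ⟨w, hw.1, hw, he⟩
    · rintro ⟨w, -, hw, he⟩; exact ⟨w, hw, he⟩
  rw [this]
  refine MeasurableSet.biUnion (vertsOf_finite hc).countable (fun w _ => ?_)
  exact (measurableSet_isWinner rem hrem hc w).inter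
    (measurable_offset dig hdig c (MeasurableSet.of_discrete))

theorem measurableSet_mem_factorMap (G : SimpleGraph Γ)
    (hfin : ∀ e ∈ G.edgeSet, (blockOf G e).Finite)
    (hdig : ∀ t, Measurable (fun x => dig x t)) (hrem : Measurable rem) (e : Sym2 Γ) :
    MeasurableSet {ℓ : Γ → 𝓛 | e ∈ factorMap dig rem G ℓ} := by
  by_cases he : e ∈ G.edgeSet
  · have : {ℓ : Γ → 𝓛 | e ∈ factorMap dig rem G ℓ} =
        {ℓ : Γ → 𝓛 | e ∈ sel dig rem (blockOf G e) ℓ} := by
      ext ℓ; simp [factorMap, he]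
    rw [this]
    exact measurableSet_mem_sel dig rem hdig hrem (hfin e he) e
  · have : {ℓ : Γ → 𝓛 | e ∈ factorMap dig rem G ℓ} = ∅ := by
      ext ℓ; simp [factorMap, he]
    rw [this]; exact MeasurableSet.empty

end factor

end Vale.Agent.Lib.P143
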