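import Vale.Agent.Lib.P143.Law4

namespace Vale.Agent.Lib.P143

open SimpleGraph MeasureTheory

section inst

open Classical

variable {Γ : Type*} [Group Γ] (Tf : Finset Γ) (M : ℕ) [NeZero M]

/-- number of digit configurations: one residue modulo `M` for each direction in `Tf` -/
noncomputable def nConf : ℕ := Fintype.card (↥Tf → ZMod M)

instance nConf_neZero : NeZero (nConf Tf M) := ⟨Fintype.card_ne_zero⟩

/-- an enumeration of the digit configurations -/
noncomputable def confEquiv : (↥Tf → ZMod M) ≃ Fin (nConf Tf M) := Fintype.equivFin _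

/-- the digit in direction `t` of a label -/
noncomputable def digI (x : Fin (nConf Tf M) × unitInterval) (t : Γ) : ℕ :=
  if h : t ∈ Tf then ((confEquiv Tf M).symm x.1 ⟨t, h⟩).val else 0

/-- the remainder of a label -/
def remI (x : Fin (nConf Tf M) × unitInterval) : unitInterval := x.2

/-- the law of a label -/
noncomputable def lamI : Measure (Fin (nConf Tf M) × unitInterval) :=
  (unifFin (nConf Tf M)).prod volume

instance lamI_prob : IsProbabilityMeasure (lamI Tf M) := by
  unfold lamI; infer_instance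

theorem measurable_digI (t : Γ) : Measurable (fun x => digI Tf M x t) := by
  have : (fun x : Fin (nConf Tf M) × unitInterval => digI Tf M x t) =
      (fun i : Fin (nConf Tf M) =>
        if h : t ∈ Tf then ((confEquiv Tf M).symm i ⟨t, h⟩).val else 0) ∘ Prod.fst := rfl
  rw [this]
  exact measurable_from_top.comp measurable_fst

theorem measurable_remI : Measurable (remI Tf M) := measurable_snd

theorem lamI_map_rem : (lamI Tf M).map (remI Tf M) = volume := by
  unfold lamI remI
  exact Measure.map_snd_prod.trans (by simp)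

theorem shiftHyp_inst : ShiftHyp (digI Tf M) (remI Tf M) (lamI Tf M) (↑Tf : Set Γ) M := by
  intro t ht a
  have ht' : t ∈ Tf := ht
  let g : ↥Tf → ZMod M := Pi.single ⟨t, ht'⟩ (a : ZMod M)
  let s : Fin (nConf Tf M) ≃ Fin (nConf Tf M) :=
    ((confEquiv Tf M).symm.trans (Equiv.addRight g)).trans (confEquiv Tf M)
  have hs : ∀ i, (confEquiv Tf M).symm (s i) = (confEquiv Tf M).symm i + g := by
    intro i; simp [s]
  refine ⟨fun x => (s x.1, x.2), ?_, ?_, ?_, ?_, ?_⟩
  · exact (measurable_from_top.comp measurable_fst).prodMk measurable_snd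
  · unfold lamI
    have h1 : (fun x : Fin (nConf Tf M) × unitInterval => (s x.1, x.2)) = Prod.map s id := rfl
    rw [h1, ← Measure.map_prod_map _ _ measurable_from_top measurable_id, unifFin_map_equiv,
      Measure.map_id]
  · intro x; rfl
  · intro x
    unfold digI
    rw [dif_pos ht', dif_pos ht']
    show ((confEquiv Tf M).symm (s x.1) ⟨t, ht'⟩).val ≡ _ [MOD M]
    rw [hs]
    show ((confEquiv Tf M).symm x.1 ⟨t, ht'⟩ + g ⟨t, ht'⟩).val ≡ _ [MOD M]
    have hg : g ⟨t, ht'⟩ = (a : ZMod M) := by simp [g]
    rw [hg, ZMod.val_add, ZMod.val_natCast]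
    simp [Nat.ModEq, Nat.add_mod]
  · intro x t' ht1 hne
    have ht1' : t' ∈ Tf := ht1
    unfold digI
    rw [dif_pos ht1', dif_pos ht1']
    show ((confEquiv Tf M).symm (s x.1) ⟨t', ht1'⟩).val ≡ _ [MOD M]
    rw [hs]
    show ((confEquiv Tf M).symm x.1 ⟨t', ht1'⟩ + g ⟨t', ht1'⟩).val ≡ _ [MOD M]
    have hg : g ⟨t', ht1'⟩ = 0 := by
      simp only [g]
      exact Pi.single_eq_of_ne (fun h => hne (congrArg Subtype.val h)) _
    rw [hg, add_zero]

end inst

end Vale.Agent.Lib.P143
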