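import Vale.Agent.Lib.P143.Factor

namespace Vale.Agent.Lib.P143

open SimpleGraph MeasureTheory

section law

variable {Γ : Type*} [Group Γ] {𝓛 : Type*} (dig : 𝓛 → Γ → ℕ) (rem : 𝓛 → unitInterval)

theorem chart_congr (w : Γ) (c : Set (Sym2 Γ)) {i j : ℕ} (h : i ≡ j [MOD nb c]) :
    chart w c i = chart w c j := by
  unfold chart
  rw [h]

theorem sel_subset {c : Set (Sym2 Γ)} (hc : c.Finite) (ℓ : Γ → 𝓛) : sel dig rem c ℓ ⊆ c := by
  rintro e ⟨w, -, he⟩
  exact (chart_isBase w hc _).1 he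

theorem vertsOf_nonempty {c : Set (Sym2 Γ)} (hne : c.Nonempty) : (vertsOf c).Nonempty := by
  obtain ⟨e, he⟩ := hne
  induction e using Sym2.ind with
  | _ a b => exact ⟨a, s(a, b), he, Sym2.mem_mk_left a b⟩

theorem exists_isWinner {c : Set (Sym2 Γ)} (hc : c.Finite) (hne : c.Nonempty) (ℓ : Γ → 𝓛) :
    ∃ w, IsWinner rem c ℓ w := by
  obtain ⟨w, hw, hmax⟩ := Set.exists_max_image (vertsOf c) (fun v => rem (ℓ v))
    (vertsOf_finite hc) (vertsOf_nonempty hne)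
  exact ⟨w, hw, hmax⟩

/-- no two distinct vertices of `W` carry the same remainder -/
def NoTie (W : Set Γ) : Set (Γ → 𝓛) :=
  {ℓ | ∀ v ∈ W, ∀ v' ∈ W, rem (ℓ v) = rem (ℓ v') → v = v'}

theorem sel_eq_chart {c : Set (Sym2 Γ)} {W : Set Γ} (hW : vertsOf c ⊆ W) {ℓ : Γ → 𝓛}
    (hℓ : ℓ ∈ NoTie rem W) {w : Γ} (hw : IsWinner rem c ℓ w) :
    sel dig rem c ℓ = chart w c (offset dig c ℓ) := by
  ext e
  constructor
  · rintro ⟨w', hw', he⟩
    have : w' = w :=
      hℓ w' (hW hw'.1) w (hW hw.1) (le_antisymm (hw.2 w' hw'.1) (hw'.2 w hw.1))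
    rw [← this]; exact he
  · intro he; exact ⟨w, hw, he⟩

theorem isWinner_congr {c : Set (Sym2 Γ)} {ℓ ℓ' : Γ → 𝓛} (h : ∀ v, rem (ℓ' v) = rem (ℓ v))
    (w : Γ) : IsWinner rem c ℓ' w ↔ IsWinner rem c ℓ w := by
  unfold IsWinner
  simp only [h]

theorem sel_congr {c : Set (Sym2 Γ)} {ℓ ℓ' : Γ → 𝓛} (h : ∀ v, rem (ℓ' v) = rem (ℓ v))
    (ho : offset dig c ℓ' ≡ offset dig c ℓ [MOD nb c]) :
    sel dig rem c ℓ' = sel dig rem c ℓ := by
  ext e
  unfold sel
  simp only [Set.mem_ofPred_eq, isWinner_congr rem h, chart_congr _ c ho]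

theorem noTie_congr {W : Set Γ} {ℓ ℓ' : Γ → 𝓛} (h : ∀ v, rem (ℓ' v) = rem (ℓ v)) :
    ℓ' ∈ NoTie rem W ↔ ℓ ∈ NoTie rem W := by
  unfold NoTie
  simp only [Set.mem_ofPred_eq, h]

theorem slot_mem {c : Set (Sym2 Γ)} {v : Γ} (hv : v ∈ vertsOf c) : s(v, v * slot v c) ∈ c := by
  have hne : (gen v c).Nonempty := by
    obtain ⟨e, he, hve⟩ := hv
    obtain ⟨u, rfl⟩ : ∃ u, e = s(v, u) := by
      induction e using Sym2.ind with
      | _ a b =>
        rcases Sym2.mem_iff.1 hve with rfl | rfl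
        · exact ⟨b, rfl⟩
        · exact ⟨a, Sym2.eq_swap⟩
    refine ⟨v⁻¹ * u, ?_⟩
    show s(v, v * (v⁻¹ * u)) ∈ c
    rw [mul_inv_cancel_left]; exact he
  exact pick_mem hne

/-- a family of pairwise disjoint finite classes whose base counts divide `M` and whose
directions lie in `T` -/
structure ClassFamily (𝒞 : Finset (Set (Sym2 Γ))) (T : Set Γ) (M : ℕ) : Prop where
  fin : ∀ c ∈ 𝒞, c.Finite
  ne : ∀ c ∈ 𝒞, c.Nonempty
  disj : ∀ c ∈ 𝒞, ∀ c' ∈ 𝒞, (c ∩ c').Nonempty → c = c'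
  dvd : ∀ c ∈ 𝒞, nb c ∣ M
  dir : ∀ c ∈ 𝒞, ∀ v t, s(v, v * t) ∈ c → t ∈ T

variable [MeasurableSpace 𝓛]

/-- the digit in any direction of `T` can be shifted by any amount modulo `M` by a
transformation of the labels preserving their law, the remainder, and the other digits -/
def ShiftHyp (lam : Measure 𝓛) (T : Set Γ) (M : ℕ) : Prop :=
  ∀ t ∈ T, ∀ a : ℕ, ∃ σ : 𝓛 → 𝓛, Measurable σ ∧ lam.map σ = lam ∧ (∀ x, rem (σ x) = rem x) ∧
    (∀ x, dig (σ x) t ≡ dig x t + a [MOD M]) ∧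
    ∀ x, ∀ t' ∈ T, t' ≠ t → dig (σ x) t' ≡ dig x t' [MOD M]

open Classical in
theorem shift_one {lam : Measure 𝓛} [IsProbabilityMeasure lam] {T : Set Γ} {M : ℕ}
    (hshift : ShiftHyp dig rem lam T M) {𝒞 : Finset (Set (Sym2 Γ))} (h𝒞 : ClassFamily 𝒞 T M)
    {c₀ : Set (Sym2 Γ)} (hc₀ : c₀ ∈ 𝒞) {w₀ : Γ} (hw₀ : w₀ ∈ vertsOf c₀) (a : ℕ) :
    ∃ τ : (Γ → 𝓛) → (Γ → 𝓛), Measurable τ ∧
      (Measure.infinitePi (fun _ : Γ => lam)).map τ = Measure.infinitePi (fun _ : Γ => lam) ∧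
      (∀ ℓ v, rem (τ ℓ v) = rem (ℓ v)) ∧
      ∀ c ∈ 𝒞, ∀ ℓ, offset dig c (τ ℓ) ≡ offset dig c ℓ + (if c = c₀ then a else 0) [MOD M] := by
  have ht₀ : slot w₀ c₀ ∈ T := h𝒞.dir c₀ hc₀ w₀ _ (slot_mem hw₀)
  obtain ⟨σ, hσm, hσlaw, hσrem, hσt, hσo⟩ := hshift _ ht₀ a
  let f : Γ → 𝓛 → 𝓛 := fun v => if v = w₀ then σ else id
  have hf : ∀ v, Measurable (f v) := by
    intro v
    by_cases hv : v = w₀
    · simp only [f, if_pos hv]; exact hσm
    · simp only [f, if_neg hv]; exact measurable_id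
  have hflaw : ∀ v, lam.map (f v) = lam := by
    intro v
    by_cases hv : v = w₀
    · simp only [f, if_pos hv]; exact hσlaw
    · simp only [f, if_neg hv]; exact Measure.map_id
  refine ⟨fun ℓ v => f v (ℓ v), measurable_pi_lambda _ (fun v => (hf v).comp (measurable_pi_apply v)),
    ?_, ?_, ?_⟩
  · have := Measure.infinitePi_map_pi (μ := fun _ : Γ => lam) (f := f) hf
    rw [this]
    simp only [hflaw]
  · intro ℓ v
    by_cases hv : v = w₀
    · simp only [f, if_pos hv]; exact hσrem _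
    · simp only [f, if_neg hv]; rfl
  · intro c hc ℓ
    unfold offset
    have hterm : ∀ v ∈ vertsF c, dig (f v (ℓ v)) (slot v c) ≡
        dig (ℓ v) (slot v c) + (if v = w₀ then (if c = c₀ then a else 0) else 0) [MOD M] := by
      intro v hv
      have hv' : v ∈ vertsOf c := (mem_vertsF (h𝒞.fin c hc) v).1 hv
      by_cases hvw : v = w₀
      · subst hvw
        simp only [f, if_true]
        by_cases hcc : c = c₀
        · subst hcc
          simp only [if_true]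
          exact hσt _
        · simp only [if_neg hcc, add_zero]
          have hslot : slot v c ∈ T := h𝒞.dir c hc v _ (slot_mem hv')
          refine hσo _ _ hslot ?_
          intro heq
          apply hcc
          refine h𝒞.disj c hc c₀ hc₀ ⟨s(v, v * slot v c), slot_mem hv', ?_⟩
          rw [heq]; exact slot_mem hw₀
      · simp only [f, if_neg hvw, add_zero]
        exact Nat.ModEq.refl _
    have hsum := Nat.ModEq.sum hterm
    refine hsum.trans ?_
    rw [Finset.sum_add_distrib]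
    refine Nat.ModEq.add_left _ ?_
    by_cases hcc : c = c₀
    · subst hcc
      simp only [if_true]
      rw [Finset.sum_ite_eq' , if_pos ((mem_vertsF (h𝒞.fin c hc) w₀).2 hw₀)]
    · simp only [if_neg hcc]
      simp only [ite_self, Finset.sum_const_zero]
      exact Nat.ModEq.refl _

end law

end Vale.Agent.Lib.P143
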