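import Vale.Agent.Lib.P143.Law1

namespace Vale.Agent.Lib.P143

open SimpleGraph MeasureTheory

section law2

variable {Γ : Type*} [Group Γ] {𝓛 : Type*} [MeasurableSpace 𝓛]
  (dig : 𝓛 → Γ → ℕ) (rem : 𝓛 → unitInterval)

/-- the event that the selected base of each class `c` of the family is `β c` -/
def Ev (𝒞 : Finset (Set (Sym2 Γ))) (β : Set (Sym2 Γ) → Set (Sym2 Γ)) : Set (Γ → 𝓛) :=
  {ℓ | ∀ c ∈ 𝒞, sel dig rem c ℓ = β c}

theorem measurableSet_sel_eq (hdig : ∀ t, Measurable (fun x => dig x t)) (hrem : Measurable rem)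
    {c : Set (Sym2 Γ)} (hc : c.Finite) (b : Set (Sym2 Γ)) :
    MeasurableSet {ℓ : Γ → 𝓛 | sel dig rem c ℓ = b} := by
  classical
  by_cases hb : b ⊆ c
  · have := measurableSet_inter_eq (fun ℓ : Γ → 𝓛 => sel dig rem c ℓ)
      (fun e => measurableSet_mem_sel dig rem hdig hrem hc e) hc.toFinset (hc.subset hb).toFinset
    have heq : {ℓ : Γ → 𝓛 | sel dig rem c ℓ = b} =
        {ℓ | sel dig rem c ℓ ∩ (↑hc.toFinset : Set (Sym2 Γ)) = ↑(hc.subset hb).toFinset} := by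
      ext ℓ
      simp only [Set.mem_ofPred_eq, Set.Finite.coe_toFinset]
      rw [Set.inter_eq_left.2 (sel_subset dig rem hc ℓ)]
    rw [heq]; exact this
  · have : {ℓ : Γ → 𝓛 | sel dig rem c ℓ = b} = ∅ := by
      ext ℓ
      simp only [Set.mem_ofPred_eq, Set.mem_empty_iff_false, iff_false]
      intro h
      exact hb (h ▸ sel_subset dig rem hc ℓ)
    rw [this]; exact MeasurableSet.empty

theorem measurableSet_ev (hdig : ∀ t, Measurable (fun x => dig x t)) (hrem : Measurable rem)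
    {𝒞 : Finset (Set (Sym2 Γ))} (hfin : ∀ c ∈ 𝒞, c.Finite)
    (β : Set (Sym2 Γ) → Set (Sym2 Γ)) : MeasurableSet (Ev dig rem 𝒞 β) := by
  have : Ev dig rem 𝒞 β = ⋂ c ∈ 𝒞, {ℓ : Γ → 𝓛 | sel dig rem c ℓ = β c} := by
    ext ℓ; simp [Ev]
  rw [this]
  exact Finset.measurableSet_biInter 𝒞
    (fun c hc => measurableSet_sel_eq dig rem hdig hrem (hfin c hc) (β c))

theorem measurableSet_noTie (hrem : Measurable rem) {W : Set Γ} (hW : W.Finite) :
    MeasurableSet (NoTie (𝓛 := 𝓛) rem W) := by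
  have : NoTie (𝓛 := 𝓛) rem W =
      ⋂ v ∈ W, ⋂ v' ∈ W, {ℓ : Γ → 𝓛 | rem (ℓ v) = rem (ℓ v') → v = v'} := by
    ext ℓ; simp [NoTie]
  rw [this]
  refine MeasurableSet.biInter hW.countable
    (fun v _ => MeasurableSet.biInter hW.countable (fun v' _ => ?_))
  by_cases hvv : v = v'
  · simp [hvv]
  · have : {ℓ : Γ → 𝓛 | rem (ℓ v) = rem (ℓ v') → v = v'} =
        {ℓ : Γ → 𝓛 | rem (ℓ v) = rem (ℓ v')}ᶜ := by
      ext ℓ; simp [hvv]
    rw [this]
    exact (measurableSet_eq_fun (hrem.comp (measurable_pi_apply v))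
      (hrem.comp (measurable_pi_apply v'))).compl

theorem step_winner {lam : Measure 𝓛} [IsProbabilityMeasure lam] {T : Set Γ} {M : ℕ}
    (hshift : ShiftHyp dig rem lam T M) {𝒞 : Finset (Set (Sym2 Γ))} (h𝒞 : ClassFamily 𝒞 T M)
    {W : Set Γ} (hW : ∀ c ∈ 𝒞, vertsOf c ⊆ W)
    {c₀ : Set (Sym2 Γ)} (hc₀ : c₀ ∈ 𝒞) {w₀ : Γ} (hw₀ : w₀ ∈ vertsOf c₀)
    (β : Set (Sym2 Γ) → Set (Sym2 Γ)) (b' : Set (Sym2 Γ))
    (hb : IsBase c₀ (β c₀)) (hb' : IsBase c₀ b') :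
    Measure.infinitePi (fun _ : Γ => lam)
        (NoTie rem W ∩ {ℓ | IsWinner rem c₀ ℓ w₀} ∩ Ev dig rem 𝒞 β) ≤
      Measure.infinitePi (fun _ : Γ => lam)
        (NoTie rem W ∩ {ℓ | IsWinner rem c₀ ℓ w₀} ∩ Ev dig rem 𝒞 (Function.update β c₀ b')) := by
  classical
  have hfin := h𝒞.fin c₀ hc₀
  obtain ⟨j, hj, hjb⟩ := (chart_bijOn w₀ hfin).2.2 hb
  obtain ⟨j', hj', hjb'⟩ := (chart_bijOn w₀ hfin).2.2 hb'
  obtain ⟨τ, hτm, hτlaw, hτrem, hτoff⟩ :=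
    shift_one dig rem hshift h𝒞 hc₀ hw₀ (j' + (nb c₀ - j))
  have hsub : NoTie rem W ∩ {ℓ | IsWinner rem c₀ ℓ w₀} ∩ Ev dig rem 𝒞 β ⊆
      τ ⁻¹' (NoTie rem W ∩ {ℓ | IsWinner rem c₀ ℓ w₀} ∩
        Ev dig rem 𝒞 (Function.update β c₀ b')) := by
    rintro ℓ ⟨⟨hnt, hwin⟩, hev⟩
    have hnt' : τ ℓ ∈ NoTie rem W := (noTie_congr rem (hτrem ℓ)).2 hnt
    have hwin' : IsWinner rem c₀ (τ ℓ) w₀ := (isWinner_congr rem (hτrem ℓ) w₀).2 hwin
    refine ⟨⟨hnt', hwin'⟩, ?_⟩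
    intro c hc
    by_cases hcc : c = c₀
    · subst hcc
      rw [Function.update_self, sel_eq_chart dig rem (hW c hc) hnt' hwin', ← hjb']
      apply chart_congr
      have h1 := (hτoff c hc ℓ).of_dvd (h𝒞.dvd c hc)
      rw [if_pos rfl] at h1
      refine h1.trans ?_
      have h2 : offset dig c ℓ ≡ j [MOD nb c] := by
        have h3 := hev c hc
        rw [sel_eq_chart dig rem (hW c hc) hnt hwin, ← hjb] at h3
        exact (chart_eq_iff w₀ hfin _ _).1 h3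
      have h4 : j + (j' + (nb c - j)) = j' + nb c := by
        have : j < nb c := hj
        omega
      calc offset dig c ℓ + (j' + (nb c - j)) ≡ j + (j' + (nb c - j)) [MOD nb c] :=
            Nat.ModEq.add_right _ h2
        _ = j' + nb c := h4
        _ ≡ j' [MOD nb c] := by simp [Nat.ModEq]
    · rw [Function.update_of_ne hcc, ← hev c hc]
      apply sel_congr dig rem (hτrem ℓ)
      have h1 := (hτoff c hc ℓ).of_dvd (h𝒞.dvd c hc)
      rw [if_neg hcc, add_zero] at h1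
      exact h1
  calc Measure.infinitePi (fun _ : Γ => lam)
        (NoTie rem W ∩ {ℓ | IsWinner rem c₀ ℓ w₀} ∩ Ev dig rem 𝒞 β)
      ≤ Measure.infinitePi (fun _ : Γ => lam) (τ ⁻¹' (NoTie rem W ∩ {ℓ | IsWinner rem c₀ ℓ w₀} ∩
        Ev dig rem 𝒞 (Function.update β c₀ b'))) := measure_mono hsub
    _ ≤ (Measure.infinitePi (fun _ : Γ => lam)).map τ (NoTie rem W ∩ {ℓ | IsWinner rem c₀ ℓ w₀} ∩
        Ev dig rem 𝒞 (Function.update β c₀ b')) := Measure.le_map_apply hτm.aemeasurable _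
    _ = _ := by rw [hτlaw]

theorem step_class {lam : Measure 𝓛} [IsProbabilityMeasure lam] {T : Set Γ} {M : ℕ}
    (hshift : ShiftHyp dig rem lam T M) {𝒞 : Finset (Set (Sym2 Γ))} (h𝒞 : ClassFamily 𝒞 T M)
    (hdig : ∀ t, Measurable (fun x => dig x t)) (hrem : Measurable rem)
    {W : Set Γ} (hW : ∀ c ∈ 𝒞, vertsOf c ⊆ W) (hWfin : W.Finite)
    {c₀ : Set (Sym2 Γ)} (hc₀ : c₀ ∈ 𝒞)
    (β : Set (Sym2 Γ) → Set (Sym2 Γ)) (b' : Set (Sym2 Γ))
    (hb : IsBase c₀ (β c₀)) (hb' : IsBase c₀ b') :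
    Measure.infinitePi (fun _ : Γ => lam) (NoTie rem W ∩ Ev dig rem 𝒞 β) ≤
      Measure.infinitePi (fun _ : Γ => lam)
        (NoTie rem W ∩ Ev dig rem 𝒞 (Function.update β c₀ b')) := by
  classical
  have hfin := h𝒞.fin c₀ hc₀
  have hdec : ∀ β' : Set (Sym2 Γ) → Set (Sym2 Γ), NoTie rem W ∩ Ev dig rem 𝒞 β' =
      ⋃ w ∈ vertsF c₀, (NoTie rem W ∩ {ℓ | IsWinner rem c₀ ℓ w} ∩ Ev dig rem 𝒞 β') := by
    intro β'
    ext ℓ
    simp only [Set.mem_iUnion, Set.mem_inter_iff, Set.mem_ofPred_eq, exists_prop]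
    constructor
    · rintro ⟨h1, h2⟩
      obtain ⟨w, hw⟩ := exists_isWinner rem hfin (h𝒞.ne c₀ hc₀) ℓ
      exact ⟨w, (mem_vertsF hfin w).2 hw.1, ⟨h1, hw⟩, h2⟩
    · rintro ⟨w, -, ⟨h1, -⟩, h2⟩
      exact ⟨h1, h2⟩
  rw [hdec β, hdec (Function.update β c₀ b')]
  have hdisj : Set.PairwiseDisjoint (↑(vertsF c₀) : Set Γ) (fun w =>
      NoTie rem W ∩ {ℓ | IsWinner rem c₀ ℓ w} ∩ Ev dig rem 𝒞 (Function.update β c₀ b')) := by
    intro w _ w' _ hne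
    refine Set.disjoint_left.2 ?_
    rintro ℓ ⟨⟨hnt, hwin⟩, -⟩ ⟨⟨-, hwin'⟩, -⟩
    exact hne (hnt w (hW c₀ hc₀ hwin.1) w' (hW c₀ hc₀ hwin'.1)
      (le_antisymm (hwin'.2 w hwin.1) (hwin.2 w' hwin'.1)))
  have hmeas : ∀ w ∈ vertsF c₀, MeasurableSet
      (NoTie rem W ∩ {ℓ | IsWinner rem c₀ ℓ w} ∩ Ev dig rem 𝒞 (Function.update β c₀ b')) := by
    intro w _
    exact ((measurableSet_noTie rem hrem hWfin).inter (measurableSet_isWinner rem hrem hfin w)).inter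
      (measurableSet_ev dig rem hdig hrem h𝒞.fin _)
  calc Measure.infinitePi (fun _ : Γ => lam)
        (⋃ w ∈ vertsF c₀, (NoTie rem W ∩ {ℓ | IsWinner rem c₀ ℓ w} ∩ Ev dig rem 𝒞 β))
      ≤ ∑ w ∈ vertsF c₀, Measure.infinitePi (fun _ : Γ => lam)
          (NoTie rem W ∩ {ℓ | IsWinner rem c₀ ℓ w} ∩ Ev dig rem 𝒞 β) :=
        measure_biUnion_finset_le _ _
    _ ≤ ∑ w ∈ vertsF c₀, Measure.infinitePi (fun _ : Γ => lam)
          (NoTie rem W ∩ {ℓ | IsWinner rem c₀ ℓ w} ∩ Ev dig rem 𝒞 (Function.update β c₀ b')) :=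
        Finset.sum_le_sum (fun w hw => step_winner dig rem hshift h𝒞 hW hc₀
          ((mem_vertsF hfin w).1 hw) β b' hb hb')
    _ = _ := (measure_biUnion_finset hdisj hmeas).symm

theorem ev_le {lam : Measure 𝓛} [IsProbabilityMeasure lam] {T : Set Γ} {M : ℕ}
    (hshift : ShiftHyp dig rem lam T M) {𝒞 : Finset (Set (Sym2 Γ))} (h𝒞 : ClassFamily 𝒞 T M)
    (hdig : ∀ t, Measurable (fun x => dig x t)) (hrem : Measurable rem)
    {W : Set Γ} (hW : ∀ c ∈ 𝒞, vertsOf c ⊆ W) (hWfin : W.Finite)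
    (β β' : Set (Sym2 Γ) → Set (Sym2 Γ))
    (hβ : ∀ c ∈ 𝒞, IsBase c (β c)) (hβ' : ∀ c ∈ 𝒞, IsBase c (β' c)) :
    Measure.infinitePi (fun _ : Γ => lam) (NoTie rem W ∩ Ev dig rem 𝒞 β) ≤
      Measure.infinitePi (fun _ : Γ => lam) (NoTie rem W ∩ Ev dig rem 𝒞 β') := by
  classical
  have key : ∀ 𝒮 : Finset (Set (Sym2 Γ)), 𝒮 ⊆ 𝒞 → ∀ β : Set (Sym2 Γ) → Set (Sym2 Γ),
      (∀ c ∈ 𝒞, IsBase c (β c)) → (∀ c ∈ 𝒞, c ∉ 𝒮 → β c = β' c) →
      Measure.infinitePi (fun _ : Γ => lam) (NoTie rem W ∩ Ev dig rem 𝒞 β) ≤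
        Measure.infinitePi (fun _ : Γ => lam) (NoTie rem W ∩ Ev dig rem 𝒞 β') := by
    intro 𝒮
    induction 𝒮 using Finset.induction_on with
    | empty =>
      intro _ β hβ hag
      have : Ev dig rem 𝒞 β = Ev dig rem 𝒞 β' := by
        ext ℓ
        simp only [Ev, Set.mem_ofPred_eq]
        constructor
        · intro h c hc; rw [h c hc, hag c hc (Finset.notMem_empty c)]
        · intro h c hc; rw [h c hc, hag c hc (Finset.notMem_empty c)]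
      rw [this]
    | insert c₀ 𝒮' hc₀ ih =>
      intro hsub β hβ hag
      have hc₀𝒞 : c₀ ∈ 𝒞 := hsub (Finset.mem_insert_self _ _)
      refine (step_class dig rem hshift h𝒞 hdig hrem hW hWfin hc₀𝒞 β (β' c₀) (hβ c₀ hc₀𝒞)
        (hβ' c₀ hc₀𝒞)).trans ?_
      refine ih ((Finset.subset_insert _ _).trans hsub) _ ?_ ?_
      · intro c hc
        by_cases hcc : c = c₀
        · subst hcc; rw [Function.update_self]; exact hβ' c hc
        · rw [Function.update_of_ne hcc]; exact hβ c hc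
      · intro c hc hcS
        by_cases hcc : c = c₀
        · subst hcc; rw [Function.update_self]
        · rw [Function.update_of_ne hcc]
          refine hag c hc (fun h => ?_)
          rcases Finset.mem_insert.1 h with h | h
          · exact hcc h
          · exact hcS h
  exact key 𝒞 subset_rfl β hβ (fun c hc hc' => absurd hc hc')

end law2

end Vale.Agent.Lib.P143
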