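import Vale.Agent.Lib.P143.Law2

namespace Vale.Agent.Lib.P143

open SimpleGraph MeasureTheory

section hull

variable {V : Type*} {G : SimpleGraph V}

/-- the union of the blocks of the edges of `F` -/
def hull (G : SimpleGraph V) (F : Set (Sym2 V)) : Set (Sym2 V) := {x | ∃ e ∈ F, x ∈ blockOf G e}

theorem subset_hull (G : SimpleGraph V) (F : Set (Sym2 V)) : F ⊆ hull G F :=
  fun e he => ⟨e, he, mem_blockOf_self G e⟩

theorem hull_finite {F : Set (Sym2 V)} (hF : F.Finite) (hfin : ∀ e ∈ F, (blockOf G e).Finite) :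
    (hull G F).Finite := by
  have : hull G F = ⋃ e ∈ F, blockOf G e := by ext x; simp [hull]
  rw [this]; exact hF.biUnion hfin

theorem hull_subset_edgeSet {F : Set (Sym2 V)} (hF : F ⊆ G.edgeSet) : hull G F ⊆ G.edgeSet := by
  rintro x ⟨e, he, hx⟩; exact blockOf_subset_edgeSet (hF he) hx

theorem cycleConst_hull (G : SimpleGraph V) (F : Set (Sym2 V)) :
    CycleConst G (fun e => e ∈ hull G F) := by
  intro v c hc e he f hf
  have h := cycleConst_blockOf G v c hc e he f hf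
  apply propext
  constructor
  · rintro ⟨e₀, he₀, hx⟩
    refine ⟨e₀, he₀, ?_⟩
    rw [← blockOf_eq_of_mem hx, h]; exact mem_blockOf_self G f
  · rintro ⟨e₀, he₀, hx⟩
    refine ⟨e₀, he₀, ?_⟩
    rw [← blockOf_eq_of_mem hx, ← h]; exact mem_blockOf_self G e

theorem isBase_empty : IsBase (∅ : Set (Sym2 V)) ∅ :=
  ⟨subset_rfl, acyc_empty, fun e he => absurd he (Set.notMem_empty e)⟩

end hull

open Classical in
/-- a random element which is almost surely in a finite set, all of whose values are equally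
likely, is uniform on that set -/
theorem prob_of_uniform {Ω : Type*} [MeasurableSpace Ω] (P : Measure Ω) [IsProbabilityMeasure P]
    {β : Type*} (Ψ : Ω → β) (N : Set Ω) (hN : MeasurableSet N) (hN0 : P Nᶜ = 0)
    (𝔅 : Finset β) (hne : 𝔅.Nonempty) (hmem : ∀ ω ∈ N, Ψ ω ∈ 𝔅)
    (hmeas : ∀ B ∈ 𝔅, MeasurableSet {ω | Ψ ω = B})
    (heq : ∀ B ∈ 𝔅, ∀ B' ∈ 𝔅, P (N ∩ {ω | Ψ ω = B}) ≤ P (N ∩ {ω | Ψ ω = B'}))
    (Q : β → Prop) :
    (P {ω | Q (Ψ ω)}).toReal = ((𝔅.filter Q).card : ℝ) / (𝔅.card : ℝ) := by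
  obtain ⟨B₀, hB₀⟩ := hne
  obtain ⟨p, hpdef⟩ : ∃ p, p = P (N ∩ {ω | Ψ ω = B₀}) := ⟨_, rfl⟩
  have hp : ∀ B ∈ 𝔅, P (N ∩ {ω | Ψ ω = B}) = p := fun B hB =>
    hpdef ▸ le_antisymm (heq B hB B₀ hB₀) (heq B₀ hB₀ B hB)
  have hcount : ∀ Q : β → Prop, P (N ∩ {ω | Q (Ψ ω)}) = ((𝔅.filter Q).card : ENNReal) * p := by
    intro Q
    have hdec : N ∩ {ω | Q (Ψ ω)} = ⋃ B ∈ 𝔅.filter Q, (N ∩ {ω | Ψ ω = B}) := by
      ext ω
      simp only [Set.mem_inter_iff, Set.mem_ofPred_eq, Set.mem_iUnion, Finset.mem_filter,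
        exists_prop]
      constructor
      · rintro ⟨hω, hQ⟩; exact ⟨Ψ ω, ⟨hmem ω hω, hQ⟩, hω, rfl⟩
      · rintro ⟨B, ⟨-, hQ⟩, hω, rfl⟩; exact ⟨hω, hQ⟩
    rw [hdec, measure_biUnion_finset]
    · rw [Finset.sum_congr rfl (fun B hB => hp B (Finset.mem_filter.1 hB).1), Finset.sum_const,
        nsmul_eq_mul]
    · intro B _ B' _ hne
      refine Set.disjoint_left.2 ?_
      rintro ω ⟨-, h1⟩ ⟨-, h2⟩
      exact hne (h1.symm.trans h2)
    · intro B hB
      exact hN.inter (hmeas B (Finset.mem_filter.1 hB).1)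
  have h1 : (𝔅.card : ENNReal) * p = 1 := by
    have h := hcount (fun _ => True)
    rw [Finset.filter_true] at h
    rw [← h]
    have : N ∩ {ω | True} = N := by simp
    rw [this]; exact (prob_compl_eq_zero_iff hN).1 hN0
  have h2 : P {ω | Q (Ψ ω)} = ((𝔅.filter Q).card : ENNReal) * p := by
    rw [← hcount Q, Set.inter_comm]; exact (measure_inter_conull hN0).symm
  have hp' : p = (𝔅.card : ENNReal)⁻¹ :=
    ENNReal.eq_inv_of_mul_eq_one_left (by rwa [mul_comm] at h1)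
  rw [h2, hp', ENNReal.toReal_mul, ENNReal.toReal_inv, ENNReal.toReal_natCast,
    ENNReal.toReal_natCast, div_eq_mul_inv]

section law3

variable {Γ : Type*} [Group Γ] {𝓛 : Type*} [MeasurableSpace 𝓛]
  (dig : 𝓛 → Γ → ℕ) (rem : 𝓛 → unitInterval)

theorem measure_tie_eq_zero {lam : Measure 𝓛} [IsProbabilityMeasure lam] (hrem : Measurable rem)
    (hlaw : lam.map rem = volume) {v v' : Γ} (hvv : v ≠ v') :
    Measure.infinitePi (fun _ : Γ => lam) {ℓ | rem (ℓ v) = rem (ℓ v')} = 0 := by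
  have hS : MeasurableSet {p : 𝓛 × 𝓛 | rem p.1 = rem p.2} :=
    measurableSet_eq_fun (hrem.comp measurable_fst) (hrem.comp measurable_snd)
  have hpr : Measurable (fun ℓ : Γ → 𝓛 => (ℓ v, ℓ v')) :=
    (measurable_pi_apply v).prodMk (measurable_pi_apply v')
  have h1 : {ℓ : Γ → 𝓛 | rem (ℓ v) = rem (ℓ v')} =
      (fun ℓ : Γ → 𝓛 => (ℓ v, ℓ v')) ⁻¹' {p : 𝓛 × 𝓛 | rem p.1 = rem p.2} := rfl
  rw [h1, ← Measure.map_apply hpr hS, Measure.infinitePi_map_eval_prod hvv, Measure.prod_apply hS]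
  have h2 : ∀ x : 𝓛, lam (Prod.mk x ⁻¹' {p : 𝓛 × 𝓛 | rem p.1 = rem p.2}) = 0 := by
    intro x
    have : Prod.mk x ⁻¹' {p : 𝓛 × 𝓛 | rem p.1 = rem p.2} = rem ⁻¹' {rem x} := by
      ext y; simp [eq_comm]
    rw [this, ← Measure.map_apply hrem (measurableSet_singleton _), hlaw]
    exact measure_singleton _
  rw [lintegral_congr h2, lintegral_zero]

theorem measure_noTie_compl {lam : Measure 𝓛} [IsProbabilityMeasure lam] (hrem : Measurable rem)
    (hlaw : lam.map rem = volume) {W : Set Γ} (hW : W.Finite) :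
    Measure.infinitePi (fun _ : Γ => lam) (NoTie rem W)ᶜ = 0 := by
  have hsub : (NoTie (𝓛 := 𝓛) rem W)ᶜ ⊆
      ⋃ v ∈ W, ⋃ v' ∈ W, ⋃ (_ : v ≠ v'), {ℓ : Γ → 𝓛 | rem (ℓ v) = rem (ℓ v')} := by
    intro ℓ hℓ
    simp only [NoTie, Set.mem_compl_iff, Set.mem_ofPred_eq, not_forall] at hℓ
    obtain ⟨v, hv, v', hv', heq, hne⟩ := hℓ
    simp only [Set.mem_iUnion]
    exact ⟨v, hv, v', hv', hne, heq⟩
  refine measure_mono_null hsub ?_
  rw [measure_biUnion_null_iff hW.countable]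
  intro v _
  rw [measure_biUnion_null_iff hW.countable]
  intro v' _
  rw [measure_iUnion_null_iff]
  intro hne
  exact measure_tie_eq_zero rem hrem hlaw hne

end law3

end Vale.Agent.Lib.P143
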