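import Vale.Agent.Lib.P143.Law3

namespace Vale.Agent.Lib.P143

open SimpleGraph MeasureTheory

section law4

variable {Γ : Type*} [Group Γ] {𝓛 : Type*} [MeasurableSpace 𝓛]
  (dig : 𝓛 → Γ → ℕ) (rem : 𝓛 → unitInterval)

theorem vertsOf_mono {c d : Set (Sym2 Γ)} (h : c ⊆ d) : vertsOf c ⊆ vertsOf d := by
  rintro v ⟨e, he, hv⟩
  exact ⟨e, h he, hv⟩

open Classical in
/-- The law of the factor map restricted to the union of the blocks of the edges of `F`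
is the uniform measure on the bases of that union. -/
theorem law_factorMap (G : SimpleGraph Γ) (hfin : ∀ e ∈ G.edgeSet, (blockOf G e).Finite)
    {lam : Measure 𝓛} [IsProbabilityMeasure lam] {T : Set Γ} {M : ℕ}
    (hshift : ShiftHyp dig rem lam T M)
    (hdig : ∀ t, Measurable (fun x => dig x t)) (hrem : Measurable rem)
    (hlaw : lam.map rem = volume)
    (hM : ∀ e ∈ G.edgeSet, nb (blockOf G e) ∣ M)
    (hT : ∀ v t, G.Adj v (v * t) → t ∈ T)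
    (F A : Finset (Sym2 Γ)) (hF : (↑F : Set (Sym2 Γ)) ⊆ G.edgeSet) :
    (Measure.infinitePi (fun _ : Γ => lam)
        {ℓ | factorMap dig rem G ℓ ∩ (↑F : Set (Sym2 Γ)) = ↑A}).toReal =
      ({B | IsBase (hull G (↑F : Set (Sym2 Γ))) B ∧ B ∩ (↑F : Set (Sym2 Γ)) = ↑A}.ncard : ℝ) /
        ({B | IsBase (hull G (↑F : Set (Sym2 Γ))) B}.ncard : ℝ) := by
  obtain ⟨D, hDdef⟩ : ∃ D, D = hull G (↑F : Set (Sym2 Γ)) := ⟨_, rfl⟩
  rw [← hDdef]
  have hFD : (↑F : Set (Sym2 Γ)) ⊆ D := hDdef ▸ subset_hull G _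
  have hDfin : D.Finite := hDdef ▸ hull_finite F.finite_toSet (fun e he => hfin e (hF he))
  have hDsub : D ⊆ G.edgeSet := hDdef ▸ hull_subset_edgeSet hF
  have hmemD : ∀ x, x ∈ D ↔ ∃ e ∈ F, x ∈ blockOf G e := by
    intro x; rw [hDdef]; rfl
  obtain ⟨𝒞, h𝒞def⟩ : ∃ 𝒞 : Finset (Set (Sym2 Γ)), 𝒞 = F.image (blockOf G) := ⟨_, rfl⟩
  have hmem𝒞 : ∀ c, c ∈ 𝒞 ↔ ∃ e ∈ F, blockOf G e = c := by
    intro c; rw [h𝒞def]; simp
  have h𝒞 : ClassFamily 𝒞 T M := by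
    refine ⟨?_, ?_, ?_, ?_, ?_⟩
    · intro c hc; obtain ⟨e, he, rfl⟩ := (hmem𝒞 c).1 hc; exact hfin e (hF he)
    · intro c hc; obtain ⟨e, he, rfl⟩ := (hmem𝒞 c).1 hc; exact ⟨e, mem_blockOf_self G e⟩
    · rintro c hc c' hc' ⟨x, hx, hx'⟩
      obtain ⟨e, he, rfl⟩ := (hmem𝒞 c).1 hc
      obtain ⟨e', he', rfl⟩ := (hmem𝒞 c').1 hc'
      rw [← blockOf_eq_of_mem hx, blockOf_eq_of_mem hx']
    · intro c hc; obtain ⟨e, he, rfl⟩ := (hmem𝒞 c).1 hc; exact hM e (hF he)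
    · intro c hc v t hvt
      obtain ⟨e, he, rfl⟩ := (hmem𝒞 c).1 hc
      exact hT v t (blockOf_subset_edgeSet (hF he) hvt)
  have hcD : ∀ c ∈ 𝒞, c ⊆ D := by
    intro c hc x hx
    obtain ⟨e, he, rfl⟩ := (hmem𝒞 c).1 hc
    exact (hmemD x).2 ⟨e, he, hx⟩
  have hblk𝒞 : ∀ x ∈ D, blockOf G x ∈ 𝒞 := by
    intro x hx
    obtain ⟨e, he, hxe⟩ := (hmemD x).1 hx
    exact (hmem𝒞 _).2 ⟨e, he, (blockOf_eq_of_mem hxe).symm⟩
  have hW : ∀ c ∈ 𝒞, vertsOf c ⊆ vertsOf D := fun c hc => vertsOf_mono (hcD c hc)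
  have hWfin : (vertsOf D).Finite := vertsOf_finite hDfin
  have hfibD : ∀ c ∈ 𝒞, D ∩ blockOf G ⁻¹' {c} = c := by
    intro c hc
    ext x
    constructor
    · rintro ⟨-, hx⟩
      have hx' : blockOf G x = c := hx
      exact hx' ▸ mem_blockOf_self G x
    · intro hx
      refine ⟨hcD c hc hx, ?_⟩
      obtain ⟨e, he, rfl⟩ := (hmem𝒞 c).1 hc
      exact blockOf_eq_of_mem hx
  have hfibD' : ∀ c, c ∉ 𝒞 → D ∩ blockOf G ⁻¹' {c} = ∅ := by
    intro c hc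
    ext x
    simp only [Set.mem_inter_iff, Set.mem_preimage, Set.mem_singleton_iff, Set.mem_empty_iff_false,
      iff_false, not_and]
    intro hx hxc
    exact hc (hxc ▸ hblk𝒞 x hx)
  have hfibΨ : ∀ ℓ : Γ → 𝓛, ∀ c ∈ 𝒞,
      (factorMap dig rem G ℓ ∩ D) ∩ blockOf G ⁻¹' {c} = sel dig rem c ℓ := by
    intro ℓ c hc
    ext x
    constructor
    · rintro ⟨⟨⟨-, hsel⟩, -⟩, hx⟩
      have hx' : blockOf G x = c := hx
      rw [← hx']; exact hsel
    · intro hx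
      have hxc : x ∈ c := sel_subset dig rem (h𝒞.fin c hc) ℓ hx
      have hxD : x ∈ D := hcD c hc hxc
      obtain ⟨e₀, he₀, rfl⟩ := (hmem𝒞 c).1 hc
      have hbx : blockOf G x = blockOf G e₀ := blockOf_eq_of_mem hxc
      refine ⟨⟨⟨blockOf_subset_edgeSet (hF he₀) hxc, ?_⟩, hxD⟩, hbx⟩
      rw [hbx]; exact hx
  have hEv : ∀ B : Set (Sym2 Γ), B ⊆ D → {ℓ : Γ → 𝓛 | factorMap dig rem G ℓ ∩ D = B} =
      Ev dig rem 𝒞 (fun c => B ∩ blockOf G ⁻¹' {c}) := by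
    intro B hB
    ext ℓ
    simp only [Ev, Set.mem_ofPred_eq]
    constructor
    · intro h c hc; rw [← hfibΨ ℓ c hc, h]
    · intro h
      ext x
      constructor
      · intro hx
        have hc : blockOf G x ∈ 𝒞 := hblk𝒞 x hx.2
        have hx2 : x ∈ (factorMap dig rem G ℓ ∩ D) ∩ blockOf G ⁻¹' {blockOf G x} := ⟨hx, rfl⟩
        rw [hfibΨ ℓ _ hc, h _ hc] at hx2
        exact hx2.1
      · intro hx
        have hc : blockOf G x ∈ 𝒞 := hblk𝒞 x (hB hx)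
        have hx2 : x ∈ B ∩ blockOf G ⁻¹' {blockOf G x} := ⟨hx, rfl⟩
        rw [← h _ hc, ← hfibΨ ℓ _ hc] at hx2
        exact hx2.1
  have hbase : ∀ ℓ ∈ NoTie rem (vertsOf D), IsBase D (factorMap dig rem G ℓ ∩ D) := by
    intro ℓ hℓ
    rw [isBase_iff_forall_fiber (cycleConst_blockOf G) hDsub Set.inter_subset_right]
    intro c
    by_cases hc : c ∈ 𝒞
    · rw [hfibD c hc, hfibΨ ℓ c hc]
      obtain ⟨w, hw⟩ := exists_isWinner rem (h𝒞.fin c hc) (h𝒞.ne c hc) ℓ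
      rw [sel_eq_chart dig rem (hW c hc) hℓ hw]
      exact chart_isBase w (h𝒞.fin c hc) _
    · have h0 : (factorMap dig rem G ℓ ∩ D) ∩ blockOf G ⁻¹' {c} = ∅ :=
        Set.subset_empty_iff.1 (by
          rw [← hfibD' c hc]; exact Set.inter_subset_inter_left _ Set.inter_subset_right)
      rw [hfibD' c hc, h0]
      exact isBase_empty
  have hβ : ∀ B, IsBase D B → ∀ c ∈ 𝒞, IsBase c (B ∩ blockOf G ⁻¹' {c}) := by
    intro B hB c hc
    have h := (isBase_iff_forall_fiber (cycleConst_blockOf G) hDsub hB.1).1 hB c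
    rwa [hfibD c hc] at h
  have hfinB : {B | IsBase D B}.Finite := finite_setOf_isBase hDfin
  have hmemB : ∀ B, B ∈ hfinB.toFinset ↔ IsBase D B := by
    intro B; rw [Set.Finite.mem_toFinset]; rfl
  have hmain := prob_of_uniform (Measure.infinitePi (fun _ : Γ => lam))
    (fun ℓ : Γ → 𝓛 => factorMap dig rem G ℓ ∩ D) (NoTie rem (vertsOf D))
    (measurableSet_noTie rem hrem hWfin) (measure_noTie_compl rem hrem hlaw hWfin)
    hfinB.toFinset
    (by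
      obtain ⟨B, hB⟩ := exists_isBase hDfin
      exact ⟨B, (hmemB B).2 hB⟩)
    (fun ℓ hℓ => (hmemB _).2 (hbase ℓ hℓ))
    (by
      intro B hB
      have hB' : IsBase D B := (hmemB B).1 hB
      have h := hEv B hB'.1
      rw [h]
      exact measurableSet_ev dig rem hdig hrem h𝒞.fin _)
    (by
      intro B hB B' hB'
      have hB1 : IsBase D B := (hmemB B).1 hB
      have hB1' : IsBase D B' := (hmemB B').1 hB'
      have h := hEv B hB1.1
      have h' := hEv B' hB1'.1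
      rw [h, h']
      exact ev_le dig rem hshift h𝒞 hdig hrem hW hWfin _ _ (hβ B hB1) (hβ B' hB1'))
    (fun B => B ∩ (↑F : Set (Sym2 Γ)) = ↑A)
  have hset : {ℓ : Γ → 𝓛 | factorMap dig rem G ℓ ∩ (↑F : Set (Sym2 Γ)) = ↑A} =
      {ℓ : Γ → 𝓛 | (factorMap dig rem G ℓ ∩ D) ∩ (↑F : Set (Sym2 Γ)) = ↑A} := by
    ext ℓ
    simp only [Set.mem_ofPred_eq]
    rw [Set.inter_assoc, Set.inter_eq_right.2 hFD]
  rw [hset, hmain]
  congr 1
  · rw [← Set.ncard_coe_finset]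
    congr 2
    ext B
    simp
  · rw [Set.ncard_eq_toFinset_card _ hfinB]

end law4

end Vale.Agent.Lib.P143
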