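import Vale.Agent.Lib.P143.Defs

namespace Vale.Agent.Lib.P143

open MeasureTheory Filter Topology

variable {V : Type*} {G : SimpleGraph V}

/-- In an acyclic graph, a connected subgraph is its own unique spanning tree. -/
theorem isSpanningTree_iff_eq_of_isAcyclic (hG : G.IsAcyclic) (H : G.Subgraph)
    (hH : H.Connected) (T : G.Subgraph) : IsSpanningTree H T ↔ T = H := by
  constructor
  · rintro ⟨hle, hv, htree⟩
    refine SimpleGraph.Subgraph.ext hv ?_
    funext a b
    apply propext
    constructor
    · intro h
      exact hle.2 h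
    · intro h
      have ha : a ∈ T.verts := hv ▸ H.edge_vert h
      have hb : b ∈ T.verts := hv ▸ H.edge_vert h.symm
      obtain ⟨p, hp⟩ := (htree.1.preconnected ⟨a, ha⟩ ⟨b, hb⟩).exists_isPath
      have hab : G.Adj a b := H.adj_sub h
      have hinj : Function.Injective T.hom := Subtype.val_injective
      have hp' : (p.map T.hom).IsPath := hp.map hinj
      have key := (hG.subsingleton_path a b).elim ⟨p.map T.hom, hp'⟩ (SimpleGraph.Path.singleton hab)
      have hlen : (p.map T.hom).length = 1 := by
        have := congrArg (fun q : G.Path a b => q.1.length) key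
        simpa using this
      rw [SimpleGraph.Walk.length_map] at hlen
      have := SimpleGraph.Walk.adj_of_length_eq_one hlen
      exact this
  · rintro rfl
    refine ⟨le_rfl, rfl, hH.coe, ?_⟩
    exact hG.comap T.hom Subtype.val_injective

end Vale.Agent.Lib.P143

namespace Vale.Agent.Lib.P143

open MeasureTheory Filter Topology

theorem cayley_adj_mul_left {Γ : Type*} [Group Γ] (S : Set Γ) (γ a b : Γ) :
    (cayley S).Adj (γ * a) (γ * b) ↔ (cayley S).Adj a b := by
  simp [cayley, SimpleGraph.fromRel_adj, mul_assoc]

theorem cayley_edgeSet_smul {Γ : Type*} [Group Γ] (S : Set Γ) (γ : Γ) :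
    Sym2.map (fun v => γ * v) '' (cayley S).edgeSet = (cayley S).edgeSet := by
  ext e
  constructor
  · rintro ⟨e', he', rfl⟩
    induction e' using Sym2.ind with
    | _ a b =>
      simp only [Sym2.map_mk, SimpleGraph.mem_edgeSet] at he' ⊢
      exact (cayley_adj_mul_left S γ a b).2 he'
  · intro he
    induction e using Sym2.ind with
    | _ a b =>
      refine ⟨s(γ⁻¹ * a, γ⁻¹ * b), ?_, ?_⟩
      · simp only [SimpleGraph.mem_edgeSet] at he ⊢
        exact (cayley_adj_mul_left S γ⁻¹ a b).2 he
      · simp

variable {V : Type*} {G : SimpleGraph V}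

/-- Along an exhaustion, every finite set of edges is eventually contained in the subgraphs. -/
theorem IsExhaustion.eventually_subset {H : ℕ → G.Subgraph} (hH : IsExhaustion H)
    (F : Finset (Sym2 V)) (hF : (↑F : Set (Sym2 V)) ⊆ G.edgeSet) :
    ∀ᶠ n in atTop, (↑F : Set (Sym2 V)) ⊆ (H n).edgeSet := by
  classical
  induction F using Finset.induction_on with
  | empty => simp
  | insert e F _ ih =>
    have hF' : (↑F : Set (Sym2 V)) ⊆ G.edgeSet := fun x hx => hF (by simp [hx])
    have he : e ∈ G.edgeSet := hF (by simp)
    have h1 : ∀ᶠ n in atTop, e ∈ (H n).edgeSet := by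
      induction e using Sym2.ind with
      | _ a b =>
        obtain ⟨n, hn⟩ := hH.edges a b he
        refine eventually_atTop.2 ⟨n, fun m hm => ?_⟩
        exact (hH.mono hm).2 hn
    filter_upwards [ih hF', h1] with n hn1 hn2
    intro x hx
    simp only [Finset.coe_insert, Set.mem_insert_iff] at hx
    rcases hx with rfl | hx
    · exact hn2
    · exact hn1 hx

theorem ustProb_of_isAcyclic (hG : G.IsAcyclic) (H : G.Subgraph) (hH : H.Connected)
    (F A : Finset (Sym2 V)) (hF : (↑F : Set (Sym2 V)) ⊆ H.edgeSet) :
    (F = A → ustProb H F A = 1) ∧ (F ≠ A → ustProb H F A = 0) := by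
  unfold ustProb
  have h1 : {T : G.Subgraph | IsSpanningTree H T} = {H} := by
    ext T
    simp [isSpanningTree_iff_eq_of_isAcyclic hG H hH T]
  constructor
  · rintro rfl
    have h2 : {T : G.Subgraph | IsSpanningTree H T ∧
        T.edgeSet ∩ (↑F : Set (Sym2 V)) = ↑F} = {H} := by
      ext T
      simp only [Set.mem_ofPred_eq, isSpanningTree_iff_eq_of_isAcyclic hG H hH T,
        Set.mem_singleton_iff, and_iff_left_iff_imp]
      rintro rfl
      exact Set.inter_eq_right.2 hF
    rw [h1, h2]
    simp
  · intro h
    have h2 : {T : G.Subgraph | IsSpanningTree H T ∧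
        T.edgeSet ∩ (↑F : Set (Sym2 V)) = ↑A} = ∅ := by
      ext T
      simp only [Set.mem_ofPred_eq, isSpanningTree_iff_eq_of_isAcyclic hG H hH T,
        Set.mem_empty_iff_false, iff_false, not_and]
      rintro rfl
      rw [Set.inter_eq_right.2 hF]
      exact fun h' => h (Finset.coe_injective h')
    rw [h2]
    simp

theorem fusf_factor_of_isAcyclic {Γ : Type*} [Group Γ] (S : Set Γ)
    (hacyc : (cayley S).IsAcyclic) : FUSFIsFactorOfIID S := by
  refine ⟨fun _ => (cayley S).edgeSet, fun _ => subset_rfl, fun e => MeasurableSet.const _,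
    fun γ u => (cayley_edgeSet_smul S γ).symm, ?_⟩
  intro H hH F A hF
  have hprob : IsProbabilityMeasure (iidUniform Γ) := by
    unfold iidUniform; infer_instance
  beta_reduce
  rw [Set.inter_eq_right.2 hF]
  by_cases h : F = A
  · subst h
    simp only [Set.ofPred_true, measure_univ, ENNReal.toReal_one]
    refine tendsto_const_nhds.congr' ?_
    filter_upwards [hH.eventually_subset F hF] with n hn
    exact ((ustProb_of_isAcyclic hacyc (H n) (hH.connected n) F F hn).1 rfl).symm
  · have hne : ¬ ((↑F : Set (Sym2 Γ)) = ↑A) := fun h' => h (Finset.coe_injective h')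
    simp only [hne, Set.ofPred_false, measure_empty, ENNReal.toReal_zero]
    refine tendsto_const_nhds.congr' ?_
    filter_upwards [hH.eventually_subset F hF] with n hn
    exact ((ustProb_of_isAcyclic hacyc (H n) (hH.connected n) F A hn).2 h).symm

end Vale.Agent.Lib.P143
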