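import Vale.Agent.Lib.P143.Inst
import Vale.Agent.Lib.P143.Tree

namespace Vale.Agent.Lib.P143

open SimpleGraph MeasureTheory Filter Topology

/-- If the connection set is finite and every block of the Cayley graph is finite, then the free
uniform spanning forest is a factor of IID. -/
theorem fusf_factor_of_finite_blocks {Γ : Type*} [Group Γ] (S : Set Γ) (hS : S.Finite)
    (hfin : ∀ e ∈ (cayley S).edgeSet, (blockOf (cayley S) e).Finite) : FUSFIsFactorOfIID S := by
  classical
  obtain ⟨Tf, hTf⟩ : ∃ Tf : Finset Γ, ∀ v t, (cayley S).Adj v (v * t) → t ∈ Tf := by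
    refine ⟨hS.toFinset ∪ hS.toFinset.image (fun x => x⁻¹), ?_⟩
    intro v t h
    have h2 : v⁻¹ * (v * t) ∈ S ∨ (v * t)⁻¹ * v ∈ S := by
      have := h
      simp only [cayley, SimpleGraph.fromRel_adj] at this
      exact this.2
    rw [Finset.mem_union, Finset.mem_image]
    rcases h2 with h2 | h2
    · left
      rw [inv_mul_cancel_left] at h2
      exact (Set.Finite.mem_toFinset hS).2 h2
    · right
      refine ⟨t⁻¹, (Set.Finite.mem_toFinset hS).2 ?_, inv_inv t⟩
      have : (v * t)⁻¹ * v = t⁻¹ := by group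
      rwa [this] at h2
  obtain ⟨M, hMpos, hM⟩ : ∃ M : ℕ, 0 < M ∧
      ∀ e ∈ (cayley S).edgeSet, nb (blockOf (cayley S) e) ∣ M := by
    refine ⟨∏ t ∈ Tf.filter (fun t => s((1 : Γ), t) ∈ (cayley S).edgeSet),
      nb (blockOf (cayley S) s((1 : Γ), t)), ?_, ?_⟩
    · exact Finset.prod_pos (fun t ht => nb_pos (hfin _ (Finset.mem_filter.1 ht).2))
    · intro e he
      induction e using Sym2.ind with
      | _ a b =>
        have hadj : (cayley S).Adj a b := he
        obtain ⟨t, ht⟩ : ∃ t, t = a⁻¹ * b := ⟨_, rfl⟩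
        have hab : b = a * t := by rw [ht, mul_inv_cancel_left]
        have hadj' : (cayley S).Adj a (a * t) := hab ▸ hadj
        have h1t : s((1 : Γ), t) ∈ (cayley S).edgeSet := by
          have h := (cayley_adj_mul_left S a 1 t).1 (by rw [mul_one]; exact hadj')
          exact h
        have htT : t ∈ Tf := hTf a t hadj'
        have hblock : blockOf (cayley S) s(a, b) =
            mapS (lmul a) (blockOf (cayley S) s((1 : Γ), t)) := by
          rw [← blockOf_lmul (cayley S) (cayley_adj_mul_left S) a s((1 : Γ), t)]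
          congr 1
          rw [Sym2.map_mk, hab]
          simp [lmul]
        rw [hblock, nb_mapS]
        exact Finset.dvd_prod_of_mem _ (Finset.mem_filter.2 ⟨htT, h1t⟩)
  haveI : NeZero M := ⟨hMpos.ne'⟩
  refine factor_transfer S (lamI Tf M) (digRem (nConf Tf M)) (measurable_digRem _) (map_digRem _)
    (factorMap (digI Tf M) (remI Tf M) (cayley S)) (factorMap_subset _ _ (cayley S))
    (measurableSet_mem_factorMap _ _ (cayley S) hfin (measurable_digI Tf M) (measurable_remI Tf M))
    (fun γ ℓ => factorMap_equivariant _ _ (cayley S) (cayley_adj_mul_left S) γ ℓ) ?_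
  intro H hH F A hF
  have hDfin : (hull (cayley S) (↑F : Set (Sym2 Γ))).Finite :=
    hull_finite F.finite_toSet (fun e he => hfin e (hF he))
  have hDsub : hull (cayley S) (↑F : Set (Sym2 Γ)) ⊆ (cayley S).edgeSet := hull_subset_edgeSet hF
  have hev := hH.eventually_subset hDfin.toFinset
    (by rw [Set.Finite.coe_toFinset]; exact hDsub)
  rw [law_factorMap (digI Tf M) (remI Tf M) (cayley S) hfin (shiftHyp_inst Tf M)
    (measurable_digI Tf M) (measurable_remI Tf M) (lamI_map_rem Tf M) hM
    (fun v t h => Finset.mem_coe.2 (hTf v t h)) F A hF]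
  refine tendsto_const_nhds.congr' ?_
  filter_upwards [hev] with n hn
  rw [Set.Finite.coe_toFinset] at hn
  exact (ustProb_eq_of_saturated (H n) (hH.connected n) (hH.finite n)
    (hull (cayley S) (↑F : Set (Sym2 Γ))) hn (cycleConst_hull (cayley S) _) F A
    (subset_hull (cayley S) _)).symm

/-- the same, with the finiteness of the blocks expressed through any equivalence relation on
edges with finite classes that relates any two edges lying on a common cycle -/
theorem fusf_factor_of_finite_classes {Γ : Type*} [Group Γ] (S : Set Γ) (hS : S.Finite)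
    (hblk : ∃ r : Sym2 Γ → Sym2 Γ → Prop, Equivalence r ∧ (∀ e, {f | r e f}.Finite) ∧
      ∀ (v : Γ) (c : (cayley S).Walk v v), c.IsCycle → ∀ e ∈ c.edges, ∀ f ∈ c.edges, r e f) :
    FUSFIsFactorOfIID S := by
  obtain ⟨r, hr, hrfin, hcyc⟩ := hblk
  exact fusf_factor_of_finite_blocks S hS
    (fun e _ => (hrfin e).subset (fun f hf => blk_le_of_cycleConst hr hcyc hf))

end Vale.Agent.Lib.P143
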