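import Vale.Agent.Lib.P143.Base

namespace Vale.Agent.Lib.P143

open SimpleGraph

variable {V : Type*} {G : SimpleGraph V}

theorem acyc_empty : Acyc (∅ : Set (Sym2 V)) := by
  unfold Acyc; rw [fromEdgeSet_empty]; exact isAcyclic_bot

theorem exists_isBase {E : Set (Sym2 V)} (hE : E.Finite) : ∃ X, IsBase E X := by
  have hfin : {X : Set (Sym2 V) | X ⊆ E ∧ Acyc X}.Finite :=
    hE.finite_subsets.subset (fun X hX => hX.1)
  obtain ⟨X, hX⟩ := hfin.exists_maximal ⟨∅, Set.empty_subset _, acyc_empty⟩
  refine ⟨X, hX.prop.1, hX.prop.2, fun e heE heX hins => heX ?_⟩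
  have : insert e X ≤ X :=
    hX.le_of_ge ⟨Set.insert_subset heE hX.prop.1, hins⟩ (Set.subset_insert _ _)
  exact this (Set.mem_insert _ _)

theorem finite_setOf_isBase {E : Set (Sym2 V)} (hE : E.Finite) : {X | IsBase E X}.Finite :=
  hE.finite_subsets.subset (fun X hX => hX.1)

theorem fromEdgeSet_subgraph_edgeSet (T : G.Subgraph) :
    fromEdgeSet T.edgeSet = T.spanningCoe := by
  rw [← Subgraph.edgeSet_spanningCoe, fromEdgeSet_edgeSet]

theorem support_subset_verts (T : G.Subgraph) {u v : V} (p : T.spanningCoe.Walk u v)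
    (hu : u ∈ T.verts) : ∀ x ∈ p.support, x ∈ T.verts := by
  induction p with
  | nil => intro x hx; simp at hx; exact hx ▸ hu
  | cons h p ih =>
    intro x hx
    simp only [Walk.support_cons, List.mem_cons] at hx
    rcases hx with rfl | hx
    · exact hu
    · exact ih (T.edge_vert (Subgraph.Adj.symm h)) x hx

theorem acyc_edgeSet_iff (T : G.Subgraph) : Acyc T.edgeSet ↔ T.coe.IsAcyclic := by
  unfold Acyc
  rw [fromEdgeSet_subgraph_edgeSet]
  constructor
  · intro h
    exact h.comap T.coeEmbeddingSpanningCoe.toHom T.coeEmbeddingSpanningCoe.injective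
  · intro h v c hc
    have hv : v ∈ T.verts := T.edge_vert (c.adj_snd hc.not_nil)
    have hw := support_subset_verts T c hv
    have hc' : (c.induce T.verts hw).IsCycle := by
      apply Walk.IsCycle.of_map (f := (Embedding.induce _).toHom)
      rw [Walk.map_induce]; exact hc
    exact h _ hc'

/-- every edge of `E` joins two vertices connected inside a base `X` of `E` -/
theorem IsBase.reachable {E X : Set (Sym2 V)} (hX : IsBase E X) {a b : V} (hab : s(a, b) ∈ E) :
    (fromEdgeSet X).Reachable a b := by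
  by_cases hmem : s(a, b) ∈ X
  · by_cases hne : a = b
    · subst hne; exact Reachable.refl _
    · exact (Adj.reachable (by simp [hmem, hne]))
  · have h1 := hX.2.2 _ hab hmem
    by_contra hnr
    apply h1
    have h2 : fromEdgeSet (insert s(a, b) X) = fromEdgeSet X ⊔ edge a b := by
      rw [Set.insert_eq, fromEdgeSet_union, sup_comm]; rfl
    unfold Acyc
    rw [h2]
    exact IsAcyclic.sup_edge_of_not_reachable hnr hX.2.1

theorem IsBase.reachable_of_walk {E X : Set (Sym2 V)} (hX : IsBase E X) {a b : V}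
    (p : G.Walk a b) (hp : ∀ e ∈ p.edges, e ∈ E) : (fromEdgeSet X).Reachable a b := by
  induction p with
  | nil => exact Reachable.refl _
  | @cons u v w h p ih =>
    have h1 : (fromEdgeSet X).Reachable u v := hX.reachable (hp s(u, v) (by simp))
    exact h1.trans (ih (fun e he => hp e (by simp [he])))

theorem fromEdgeSet_insert_eq (X : Set (Sym2 V)) (a b : V) :
    fromEdgeSet (insert s(a, b) X) = fromEdgeSet X ⊔ edge a b := by
  rw [Set.insert_eq, fromEdgeSet_union, sup_comm]; rfl

theorem isSpanningTree_iff_isBase (H : G.Subgraph) (hH : H.Connected) (T : G.Subgraph) :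
    IsSpanningTree H T ↔ T.verts = H.verts ∧ IsBase H.edgeSet T.edgeSet := by
  constructor
  · rintro ⟨hle, hv, htree⟩
    refine ⟨hv, Subgraph.edgeSet_mono hle, (acyc_edgeSet_iff T).2 htree.2, ?_⟩
    intro e heH heT hins
    induction e using Sym2.ind with
    | _ a b =>
      have hab : H.Adj a b := heH
      have ha : a ∈ T.verts := hv ▸ H.edge_vert hab
      have hb : b ∈ T.verts := hv ▸ H.edge_vert hab.symm
      have hconn : T.Connected := ⟨htree.1⟩
      obtain ⟨p, hp⟩ :=
        ((Subgraph.connected_iff_forall_exists_walk_subgraph T).1 hconn).2 ha hb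
      have hreach : (fromEdgeSet T.edgeSet).Reachable a b := by
        refine ⟨p.transfer _ ?_⟩
        intro e he
        rw [edgeSet_fromEdgeSet]
        refine ⟨Subgraph.edgeSet_mono hp (p.mem_edges_toSubgraph.2 he), ?_⟩
        exact G.not_isDiag_of_mem_edgeSet (p.edges_subset_edgeSet he)
      unfold Acyc at hins
      rw [fromEdgeSet_insert_eq, isAcyclic_sup_fromEdgeSet_iff] at hins
      rcases hins.2 hreach with rfl | hadj
      · exact (H.adj_sub hab).ne rfl
      · apply heT
        rw [fromEdgeSet_adj] at hadj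
        exact hadj.1
  · rintro ⟨hv, hbase⟩
    have hle : T ≤ H := ⟨hv.le, fun a b hab =>
      (Subgraph.mem_edgeSet (G' := H)).1 (hbase.1 ((Subgraph.mem_edgeSet (G' := T)).2 hab))⟩
    refine ⟨hle, hv, ?_, (acyc_edgeSet_iff T).1 hbase.2.1⟩
    have hconn : T.Connected := by
      rw [Subgraph.connected_iff_forall_exists_walk_subgraph]
      refine ⟨hv ▸ hH.nonempty, ?_⟩
      intro u v hu hv'
      obtain ⟨p, hp⟩ :=
        ((Subgraph.connected_iff_forall_exists_walk_subgraph H).1 hH).2 (hv ▸ hu) (hv ▸ hv')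
      have hreach := hbase.reachable_of_walk p
        (fun e he => Subgraph.edgeSet_mono hp (p.mem_edges_toSubgraph.2 he))
      obtain ⟨q⟩ := hreach
      have hleG : fromEdgeSet T.edgeSet ≤ G :=
        (fromEdgeSet_le G).2 (fun e he => T.edgeSet_subset he.1)
      refine ⟨q.mapLe hleG, ?_⟩
      by_cases hnil : (q.mapLe hleG).Nil
      · have huv : u = v := hnil.eq
        subst huv
        rw [hnil.eq_nil]
        simpa using hu
      · rw [Walk.toSubgraph_le_iff hnil]
        intro e he
        have he' : e ∈ q.edges := by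
          have : e ∈ (q.mapLe hleG).edges := he
          rwa [Walk.edges_mapLe_eq_edges] at this
        have := Walk.edges_subset_edgeSet q he'
        rw [edgeSet_fromEdgeSet] at this
        exact this.1
    exact hconn.coe

/-- The subgraph of `H` with the same vertices and edge set `X ⊆ E(H)`. -/
def subgraphOfEdges (H : G.Subgraph) (X : Set (Sym2 V)) (hX : X ⊆ H.edgeSet) : G.Subgraph where
  verts := H.verts
  Adj a b := s(a, b) ∈ X
  adj_sub := fun h => H.adj_sub (hX h)
  edge_vert := fun h => H.edge_vert (hX h)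
  symm := ⟨fun a b h => by
    have h' : s(a, b) ∈ X := h
    rw [Sym2.eq_swap] at h'
    exact h'⟩

theorem subgraphOfEdges_edgeSet (H : G.Subgraph) (X : Set (Sym2 V)) (hX : X ⊆ H.edgeSet) :
    (subgraphOfEdges H X hX).edgeSet = X := by
  ext e
  induction e using Sym2.ind with
  | _ a b => exact Iff.rfl

theorem ncard_spanningTree_eq (H : G.Subgraph) (hH : H.Connected) (P : Set (Sym2 V) → Prop) :
    {T : G.Subgraph | IsSpanningTree H T ∧ P T.edgeSet}.ncard =
      {X | IsBase H.edgeSet X ∧ P X}.ncard := by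
  have himg : (fun T : G.Subgraph => T.edgeSet) '' {T | IsSpanningTree H T ∧ P T.edgeSet} =
      {X | IsBase H.edgeSet X ∧ P X} := by
    ext X
    constructor
    · rintro ⟨T, ⟨hT, hP⟩, rfl⟩
      exact ⟨((isSpanningTree_iff_isBase H hH T).1 hT).2, hP⟩
    · rintro ⟨hX, hP⟩
      refine ⟨subgraphOfEdges H X hX.1, ⟨?_, ?_⟩, subgraphOfEdges_edgeSet H X hX.1⟩
      · rw [isSpanningTree_iff_isBase H hH, subgraphOfEdges_edgeSet]
        exact ⟨(rfl : H.verts = H.verts), hX⟩
      · rw [subgraphOfEdges_edgeSet]; exact hP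
  rw [← himg]
  refine (Set.ncard_image_of_injOn ?_).symm
  rintro T ⟨hT, -⟩ T' ⟨hT', -⟩ (h : T.edgeSet = T'.edgeSet)
  refine Subgraph.ext (hT.2.1.trans hT'.2.1.symm) ?_
  funext a b
  have h1 : s(a, b) ∈ T.edgeSet ↔ s(a, b) ∈ T'.edgeSet := by rw [h]
  exact propext h1

theorem isBase_iff_inter_diff {D : Set (Sym2 V)} (hsat : CycleConst G (fun e => e ∈ D))
    {E X : Set (Sym2 V)} (hE : E ⊆ G.edgeSet) (hXE : X ⊆ E) :
    IsBase E X ↔ IsBase (E ∩ D) (X ∩ D) ∧ IsBase (E \ D) (X \ D) := by
  rw [isBase_iff_forall_fiber hsat hE hXE]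
  have hT : (fun e => e ∈ D) ⁻¹' {True} = D := by
    ext e; simp
  have hF : (fun e => e ∈ D) ⁻¹' {False} = Dᶜ := by
    ext e; simp
  constructor
  · intro h
    refine ⟨?_, ?_⟩
    · have := h True; rwa [hT] at this
    · have := h False; rwa [hF] at this
  · rintro ⟨h1, h2⟩ i
    by_cases hi : i
    · have : i = True := eq_true hi
      subst this; rwa [hT]
    · have : i = False := eq_false hi
      subst this; rwa [hF]

theorem ncard_isBase_split {D : Set (Sym2 V)} (hsat : CycleConst G (fun e => e ∈ D))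
    {E : Set (Sym2 V)} (hE : E ⊆ G.edgeSet) (hDE : D ⊆ E) (Q : Set (Sym2 V) → Prop) :
    {X | IsBase E X ∧ Q (X ∩ D)}.ncard =
      {B | IsBase D B ∧ Q B}.ncard * {R | IsBase (E \ D) R}.ncard := by
  have hED : E ∩ D = D := Set.inter_eq_right.2 hDE
  have himg : (fun p : Set (Sym2 V) × Set (Sym2 V) => p.1 ∪ p.2) ''
      ({B | IsBase D B ∧ Q B} ×ˢ {R | IsBase (E \ D) R}) = {X | IsBase E X ∧ Q (X ∩ D)} := by
    ext X
    constructor
    · rintro ⟨⟨B, R⟩, ⟨⟨hB, hQ⟩, hR⟩, rfl⟩
      have hBD : B ⊆ D := hB.1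
      have hRD : R ⊆ E \ D := hR.1
      have h1 : (B ∪ R) ∩ D = B := by
        ext e; constructor
        · rintro ⟨he | he, heD⟩
          · exact he
          · exact absurd heD (hRD he).2
        · intro he; exact ⟨Or.inl he, hBD he⟩
      have h2 : (B ∪ R) \ D = R := by
        ext e; constructor
        · rintro ⟨he | he, heD⟩
          · exact absurd (hBD he) heD
          · exact he
        · intro he; exact ⟨Or.inr he, (hRD he).2⟩
      refine ⟨?_, ?_⟩
      · rw [isBase_iff_inter_diff hsat hE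
          (Set.union_subset (hBD.trans hDE) (hRD.trans Set.diff_subset)), hED, h1, h2]
        exact ⟨hB, hR⟩
      · show Q ((B ∪ R) ∩ D)
        rw [h1]; exact hQ
    · rintro ⟨hX, hQ⟩
      have h := (isBase_iff_inter_diff hsat hE hX.1).1 hX
      rw [hED] at h
      exact ⟨⟨X ∩ D, X \ D⟩, ⟨⟨h.1, hQ⟩, h.2⟩, Set.inter_union_diff X D⟩
  rw [← himg, Set.ncard_image_of_injOn, Set.ncard_prod]
  rintro ⟨B, R⟩ ⟨⟨hB, -⟩, hR⟩ ⟨B', R'⟩ ⟨⟨hB', -⟩, hR'⟩ (h : B ∪ R = B' ∪ R')
  have hBD : B ⊆ D := hB.1
  have hRD : R ⊆ E \ D := hR.1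
  have hBD' : B' ⊆ D := hB'.1
  have hRD' : R' ⊆ E \ D := hR'.1
  have e1 : B = B' := by
    ext e; constructor
    · intro he
      have : e ∈ B' ∪ R' := h ▸ Or.inl he
      rcases this with h' | h'
      · exact h'
      · exact absurd (hBD he) (hRD' h').2
    · intro he
      have : e ∈ B ∪ R := h ▸ Or.inl he
      rcases this with h' | h'
      · exact h'
      · exact absurd (hBD' he) (hRD h').2
  have e2 : R = R' := by
    ext e; constructor
    · intro he
      have : e ∈ B' ∪ R' := h ▸ Or.inr he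
      rcases this with h' | h'
      · exact absurd (hBD' h') (hRD he).2
      · exact h'
    · intro he
      have : e ∈ B ∪ R := h ▸ Or.inr he
      rcases this with h' | h'
      · exact absurd (hBD h') (hRD' he).2
      · exact h'
  rw [e1, e2]

theorem subgraph_edgeSet_finite (H : G.Subgraph) (hfin : H.verts.Finite) : H.edgeSet.Finite := by
  refine ((hfin.prod hfin).image (fun p : V × V => s(p.1, p.2))).subset ?_
  intro e he
  induction e using Sym2.ind with
  | _ a b =>
    exact ⟨(a, b), ⟨H.edge_vert he, H.edge_vert (Subgraph.Adj.symm he)⟩, rfl⟩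

/-- The uniform spanning tree of a finite connected subgraph `H`, restricted to a set `D` of
edges of `H` which is a union of classes of a cycle-constant labelling, is a uniform base
of `D`. -/
theorem ustProb_eq_of_saturated (H : G.Subgraph) (hH : H.Connected) (hfin : H.verts.Finite)
    (D : Set (Sym2 V)) (hD : D ⊆ H.edgeSet) (hsat : CycleConst G (fun e => e ∈ D))
    (F A : Finset (Sym2 V)) (hF : (↑F : Set (Sym2 V)) ⊆ D) :
    ustProb H F A = ({B | IsBase D B ∧ B ∩ (↑F : Set (Sym2 V)) = ↑A}.ncard : ℝ) /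
      ({B | IsBase D B}.ncard : ℝ) := by
  unfold ustProb
  have hE : H.edgeSet ⊆ G.edgeSet := H.edgeSet_subset
  have h1 := ncard_spanningTree_eq H hH (fun X => X ∩ (↑F : Set (Sym2 V)) = ↑A)
  have h2 := ncard_spanningTree_eq H hH (fun _ => True)
  simp only [and_true] at h2
  rw [h1, h2]
  have h3 := ncard_isBase_split hsat hE hD (fun B => B ∩ (↑F : Set (Sym2 V)) = ↑A)
  have h4 := ncard_isBase_split hsat hE hD (fun _ => True)
  simp only [and_true] at h4
  have h5 : {X | IsBase H.edgeSet X ∧ X ∩ (↑F : Set (Sym2 V)) = ↑A} =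
      {X | IsBase H.edgeSet X ∧ X ∩ D ∩ (↑F : Set (Sym2 V)) = ↑A} := by
    ext X
    have : X ∩ D ∩ (↑F : Set (Sym2 V)) = X ∩ (↑F : Set (Sym2 V)) := by
      rw [Set.inter_assoc, Set.inter_eq_right.2 hF]
    simp only [Set.mem_ofPred_eq, this]
  rw [h5, h3, h4]
  have hfinE : (H.edgeSet \ D).Finite := (subgraph_edgeSet_finite H hfin).subset Set.diff_subset
  have hpos : 0 < {R | IsBase (H.edgeSet \ D) R}.ncard := by
    rw [Set.ncard_pos (finite_setOf_isBase hfinE)]
    exact exists_isBase hfinE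
  have hne : ({R | IsBase (H.edgeSet \ D) R}.ncard : ℝ) ≠ 0 := by
    exact_mod_cast hpos.ne'
  push_cast
  rw [mul_div_mul_right _ _ hne]

end Vale.Agent.Lib.P143
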